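import Vale.Agent.P141.H922.PairS1
import Vale.Agent.P141.PL.H560.Transfer3

/-!
# P141, line W, (E-SH): the shift representation of lifts of push-forwards

`u = a1 c k (q, v)` is the push-forward of the product function `atm v` on the cube of `q` of
scale `k` under the linear form `el c`. On the cube of `p` of the same scale its lift
`x ↦ u (el c x)` is the sum over the offsets `θ` in the plane `el c θ = 0` of the translated (and
cut) product functions `atm (uT k q θ v)` (`a1_shift`, exact, any coefficients); only cubes of the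
same scale occur, the number of active offsets is `≤ 4 * 4 ^ k`.
* `sum_cs_le`, `sum_cs12`, `sum_cs13`, `sum_cs23`: the sum over the offsets of a translated edge
  at a fixed point is at most the sum over the face of the cube;
* `cs_cs`, `op_shift`: Cauchy-Schwarz in `θ` for the residual operators.
-/

namespace Vale.Agent.P141.H911

open Finset
open Vale.Agent.P141.PL (Pt el)
open Vale.Agent.P141.PL.H315 (cube3 mem_cube3 gz card_cube3 avg iv mem_iv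
  e12 e13 e23 Tri atm card_iv avg_nonneg)
open Vale.Agent.P141.PL.H560 (cs cs_of_mem cs_of_not_mem)
open Vale.Agent.P141.PL.H318 (a1)
open Vale.Agent.P141.H922

noncomputable section

/-! ### The offsets -/

/-- the offsets between the intervals of scale `k` of `a` and of `b` -/
def win (k : ℕ) (a b : ℤ) : Finset ℤ :=
  Ioo (2 ^ k * (b / 2 ^ k) - 2 ^ k * (a / 2 ^ k) - 2 ^ k)
    (2 ^ k * (b / 2 ^ k) - 2 ^ k * (a / 2 ^ k) + 2 ^ k)

theorem sub_mem_win {k : ℕ} {a b x y : ℤ} (hx : x ∈ iv k a) (hy : y ∈ iv k b) :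
    y - x ∈ win k a b := by
  unfold iv at hx hy
  unfold win
  rw [mem_Ico] at hx hy
  rw [mem_Ioo]
  constructor <;> linarith [hx.1, hx.2, hy.1, hy.2]

theorem card_win_le (k : ℕ) (a b : ℤ) : (win k a b).card ≤ 2 * 2 ^ k := by
  unfold win
  rw [Int.card_Ioo]
  have h : (0 : ℤ) < 2 ^ k := by positivity
  have h2 : ((2 ^ k : ℕ) : ℤ) = 2 ^ k := by push_cast; rfl
  omega

/-- the active offsets in the plane `el c θ = 0` between the cubes of scale `k` of `p` and `q` -/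
def Th (c : Pt) (k : ℕ) (p q : Pt) : Finset Pt :=
  (win k p.1 q.1 ×ˢ win k p.2.1 q.2.1 ×ˢ win k p.2.2 q.2.2).filter fun θ => el c θ = 0

theorem el_of_mem {c : Pt} {k : ℕ} {p q θ : Pt} (h : θ ∈ Th c k p q) : el c θ = 0 :=
  (mem_filter.1 h).2

/-- translation -/
def ad (x θ : Pt) : Pt := (x.1 + θ.1, x.2.1 + θ.2.1, x.2.2 + θ.2.2)

theorem el_ad (c x θ : Pt) : el c (ad x θ) = el c x + el c θ := by
  unfold el ad; ring

theorem mem_Th {c : Pt} {k : ℕ} {p q x θ : Pt} (hx : x ∈ cube3 k p) (hy : ad x θ ∈ cube3 k q)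
    (h0 : el c θ = 0) : θ ∈ Th c k p q := by
  rw [mem_cube3] at hx hy
  unfold Th
  rw [mem_filter, mem_product, mem_product]
  refine ⟨⟨?_, ?_, ?_⟩, h0⟩
  · have := sub_mem_win hx.1 hy.1
    rwa [show (ad x θ).1 - x.1 = θ.1 by unfold ad; ring] at this
  · have := sub_mem_win hx.2.1 hy.2.1
    rwa [show (ad x θ).2.1 - x.2.1 = θ.2.1 by unfold ad; ring] at this
  · have := sub_mem_win hx.2.2 hy.2.2
    rwa [show (ad x θ).2.2 - x.2.2 = θ.2.2 by unfold ad; ring] at this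

/-- the lift of a push-forward is a sum over the offsets, any function on the cube -/
theorem fib_shift (c : Pt) (k : ℕ) (q : Pt) (f : Pt → ℝ) {p x : Pt} (hx : x ∈ cube3 k p) :
    (∑ y ∈ cube3 k q, if el c y = el c x then f y else 0) =
      ∑ θ ∈ Th c k p q, if ad x θ ∈ cube3 k q then f (ad x θ) else 0 := by
  rw [← sum_filter, ← sum_filter]
  refine sum_bij' (fun y _ => (y.1 - x.1, y.2.1 - x.2.1, y.2.2 - x.2.2)) (fun θ _ => ad x θ)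
    ?_ ?_ ?_ ?_ ?_
  · intro y hy
    rw [mem_filter] at hy ⊢
    have e1 : ad x (y.1 - x.1, y.2.1 - x.2.1, y.2.2 - x.2.2) = y := by
      unfold ad
      ext <;> simp
    refine ⟨mem_Th hx (by rw [e1]; exact hy.1) ?_, by rw [e1]; exact hy.1⟩
    have h1 := hy.2
    unfold el at h1 ⊢
    simp only
    linarith
  · intro θ hθ
    rw [mem_filter] at hθ ⊢
    refine ⟨hθ.2, ?_⟩
    rw [el_ad, el_of_mem hθ.1, add_zero]
  · intro y _
    unfold ad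
    ext <;> simp
  · intro θ _
    unfold ad
    ext <;> simp
  · intro y _
    congr 1
    unfold ad
    ext <;> simp

/-! ### Translated product functions -/

/-- the translated and cut product function -/
def uT (k : ℕ) (q θ : Pt) (u : Tri) : Tri :=
  (cs (iv k q.1 ×ˢ iv k q.2.1) (θ.1, θ.2.1) u.1,
    cs (iv k q.1 ×ˢ iv k q.2.2) (θ.1, θ.2.2) u.2.1,
    cs (iv k q.2.1 ×ˢ iv k q.2.2) (θ.2.1, θ.2.2) u.2.2)

theorem atm_uT (k : ℕ) (q θ : Pt) (u : Tri) (x : Pt) :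
    atm (uT k q θ u) x = if ad x θ ∈ cube3 k q then atm u (ad x θ) else 0 := by
  unfold atm e12 e13 e23 uT
  simp only
  split_ifs with h
  · rw [mem_cube3] at h
    have g1 : ((x.1, x.2.1).1 + (θ.1, θ.2.1).1, (x.1, x.2.1).2 + (θ.1, θ.2.1).2) ∈
        iv k q.1 ×ˢ iv k q.2.1 := mem_product.mpr ⟨h.1, h.2.1⟩
    have g2 : ((x.1, x.2.2).1 + (θ.1, θ.2.2).1, (x.1, x.2.2).2 + (θ.1, θ.2.2).2) ∈
        iv k q.1 ×ˢ iv k q.2.2 := mem_product.mpr ⟨h.1, h.2.2⟩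
    have g3 : ((x.2.1, x.2.2).1 + (θ.2.1, θ.2.2).1, (x.2.1, x.2.2).2 + (θ.2.1, θ.2.2).2) ∈
        iv k q.2.1 ×ˢ iv k q.2.2 := mem_product.mpr ⟨h.2.1, h.2.2⟩
    rw [cs_of_mem g1, cs_of_mem g2, cs_of_mem g3]
    rfl
  · rw [mem_cube3] at h
    by_cases a1 : x.1 + θ.1 ∈ iv k q.1
    · by_cases a2 : x.2.1 + θ.2.1 ∈ iv k q.2.1
      · have a3 : x.2.2 + θ.2.2 ∉ iv k q.2.2 := fun hh => h ⟨a1, a2, hh⟩
        rw [cs_of_not_mem (Q := iv k q.1 ×ˢ iv k q.2.2)]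
        · ring
        · exact fun hh => a3 (mem_product.1 hh).2
      · rw [cs_of_not_mem (Q := iv k q.1 ×ˢ iv k q.2.1)]
        · ring
        · exact fun hh => a2 (mem_product.1 hh).2
    · rw [cs_of_not_mem (Q := iv k q.1 ×ˢ iv k q.2.1)]
      · ring
      · exact fun hh => a1 (mem_product.1 hh).1

/-- **shift representation**: the lift of the push-forward of an atom, on a cube of the same
scale, is the sum over the offsets of the translated atoms -/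
theorem a1_shift (c : Pt) (k : ℕ) (q : Pt) (u : Tri) {p x : Pt} (hx : x ∈ cube3 k p) :
    a1 c k (q, u) (el c x) = ∑ θ ∈ Th c k p q, atm (uT k q θ u) x := by
  unfold a1
  rw [fib_shift c k q (atm u) hx]
  exact sum_congr rfl fun θ _ => (atm_uT k q θ u x).symm

/-! ### Injectivity in the plane -/

theorem inj12 {c : Pt} (hc : c.2.2 ≠ 0) {θ η : Pt} (h1 : el c θ = 0) (h2 : el c η = 0)
    (e1 : θ.1 = η.1) (e2 : θ.2.1 = η.2.1) : θ = η := by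
  unfold el at h1 h2
  have h3 : c.2.2 * θ.2.2 = c.2.2 * η.2.2 := by
    rw [e1, e2] at h1; linarith
  exact Prod.ext e1 (Prod.ext e2 (mul_left_cancel₀ hc h3))

theorem inj13 {c : Pt} (hc : c.2.1 ≠ 0) {θ η : Pt} (h1 : el c θ = 0) (h2 : el c η = 0)
    (e1 : θ.1 = η.1) (e2 : θ.2.2 = η.2.2) : θ = η := by
  unfold el at h1 h2
  have h3 : c.2.1 * θ.2.1 = c.2.1 * η.2.1 := by
    rw [e1, e2] at h1; linarith
  exact Prod.ext e1 (Prod.ext (mul_left_cancel₀ hc h3) e2)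

theorem inj23 {c : Pt} (hc : c.1 ≠ 0) {θ η : Pt} (h1 : el c θ = 0) (h2 : el c η = 0)
    (e1 : θ.2.1 = η.2.1) (e2 : θ.2.2 = η.2.2) : θ = η := by
  unfold el at h1 h2
  have h3 : c.1 * θ.1 = c.1 * η.1 := by
    rw [e1, e2] at h1; linarith
  exact Prod.ext (mul_left_cancel₀ hc h3) (Prod.ext e1 e2)

/-- the number of the active offsets -/
theorem card_Th_le {c : Pt} (hc : c.2.2 ≠ 0) (k : ℕ) (p q : Pt) :
    (Th c k p q).card ≤ 4 * 4 ^ k := by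
  have h1 : (Th c k p q).card ≤ (win k p.1 q.1 ×ˢ win k p.2.1 q.2.1).card := by
    refine card_le_card_of_injOn (fun θ => (θ.1, θ.2.1)) ?_ ?_
    · intro θ hθ
      have h := (mem_product.1 (mem_filter.1 (mem_coe.1 hθ)).1)
      exact mem_coe.2 (mem_product.2 ⟨h.1, (mem_product.1 h.2).1⟩)
    · intro θ hθ η hη h
      simp only [Prod.mk.injEq] at h
      exact inj12 hc (el_of_mem (mem_coe.1 hθ)) (el_of_mem (mem_coe.1 hη)) h.1 h.2
  refine h1.trans ?_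
  rw [card_product]
  calc _ ≤ (2 * 2 ^ k) * (2 * 2 ^ k) := Nat.mul_le_mul (card_win_le _ _ _) (card_win_le _ _ _)
    _ = 4 * 4 ^ k := by
      rw [show (4 : ℕ) ^ k = 2 ^ k * 2 ^ k by rw [← mul_pow]; norm_num]; ring

/-! ### Sums over the offsets of translated edges -/

theorem cs_nonneg {Q : Finset (ℤ × ℤ)} {h : ℤ × ℤ} {f : ℤ × ℤ → ℝ} (hf : ∀ w, 0 ≤ f w)
    (x : ℤ × ℤ) : 0 ≤ cs Q h f x := by
  by_cases hx : (x.1 + h.1, x.2 + h.2) ∈ Q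
  · rw [cs_of_mem hx]; exact hf _
  · rw [cs_of_not_mem hx]

theorem cs_pow {Q : Finset (ℤ × ℤ)} {h : ℤ × ℤ} {f : ℤ × ℤ → ℝ} {m : ℕ} (hm : m ≠ 0)
    (x : ℤ × ℤ) : cs Q h f x ^ m = cs Q h (fun w => f w ^ m) x := by
  by_cases hx : (x.1 + h.1, x.2 + h.2) ∈ Q
  · rw [cs_of_mem hx, cs_of_mem hx]
  · rw [cs_of_not_mem hx, cs_of_not_mem hx, zero_pow hm]

/-- a sum over distinct offsets of a translated function is at most the sum over the box -/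
theorem sum_cs_le {ι : Type*} {S : Finset ι} {h : ι → ℤ × ℤ} (hS : Set.InjOn h S)
    {Q : Finset (ℤ × ℤ)} {f : ℤ × ℤ → ℝ} (hf : ∀ w, 0 ≤ f w) (x : ℤ × ℤ) :
    ∑ i ∈ S, cs Q (h i) f x ≤ ∑ w ∈ Q, f w := by
  classical
  have e1 : ∑ i ∈ S, cs Q (h i) f x =
      ∑ i ∈ S.filter (fun i => (x.1 + (h i).1, x.2 + (h i).2) ∈ Q),
        f (x.1 + (h i).1, x.2 + (h i).2) := by
    rw [sum_filter]
    refine sum_congr rfl fun i _ => ?_
    split_ifs with hx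
    · rw [cs_of_mem hx]
    · rw [cs_of_not_mem hx]
  rw [e1]
  have hinj : Set.InjOn (fun i => (x.1 + (h i).1, x.2 + (h i).2))
      (S.filter (fun i => (x.1 + (h i).1, x.2 + (h i).2) ∈ Q) : Finset ι) := by
    intro i hi j hj hij
    simp only [Prod.mk.injEq, add_right_inj] at hij
    exact hS (mem_filter.1 (mem_coe.1 hi)).1 (mem_filter.1 (mem_coe.1 hj)).1
      (Prod.ext hij.1 hij.2)
  rw [← sum_image (f := f) (g := fun i => (x.1 + (h i).1, x.2 + (h i).2)) hinj]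
  refine sum_le_sum_of_subset_of_nonneg ?_ fun _ _ _ => hf _
  intro y hy
  rw [mem_image] at hy
  obtain ⟨i, hi, rfl⟩ := hy
  exact (mem_filter.1 hi).2

theorem sum_cs12 {c : Pt} (hc : c.2.2 ≠ 0) (k : ℕ) (p q : Pt) {Q : Finset (ℤ × ℤ)}
    {f : ℤ × ℤ → ℝ} (hf : ∀ w, 0 ≤ f w) (x : ℤ × ℤ) :
    ∑ θ ∈ Th c k p q, cs Q (θ.1, θ.2.1) f x ≤ ∑ w ∈ Q, f w := by
  refine sum_cs_le (h := fun θ : Pt => (θ.1, θ.2.1)) ?_ hf x
  intro θ hθ η hη h
  simp only [Prod.mk.injEq] at h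
  exact inj12 hc (el_of_mem (mem_coe.1 hθ)) (el_of_mem (mem_coe.1 hη)) h.1 h.2

theorem sum_cs13 {c : Pt} (hc : c.2.1 ≠ 0) (k : ℕ) (p q : Pt) {Q : Finset (ℤ × ℤ)}
    {f : ℤ × ℤ → ℝ} (hf : ∀ w, 0 ≤ f w) (x : ℤ × ℤ) :
    ∑ θ ∈ Th c k p q, cs Q (θ.1, θ.2.2) f x ≤ ∑ w ∈ Q, f w := by
  refine sum_cs_le (h := fun θ : Pt => (θ.1, θ.2.2)) ?_ hf x
  intro θ hθ η hη h
  simp only [Prod.mk.injEq] at h
  exact inj13 hc (el_of_mem (mem_coe.1 hθ)) (el_of_mem (mem_coe.1 hη)) h.1 h.2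

theorem sum_cs23 {c : Pt} (hc : c.1 ≠ 0) (k : ℕ) (p q : Pt) {Q : Finset (ℤ × ℤ)}
    {f : ℤ × ℤ → ℝ} (hf : ∀ w, 0 ≤ f w) (x : ℤ × ℤ) :
    ∑ θ ∈ Th c k p q, cs Q (θ.2.1, θ.2.2) f x ≤ ∑ w ∈ Q, f w := by
  refine sum_cs_le (h := fun θ : Pt => (θ.2.1, θ.2.2)) ?_ hf x
  intro θ hθ η hη h
  simp only [Prod.mk.injEq] at h
  exact inj23 hc (el_of_mem (mem_coe.1 hθ)) (el_of_mem (mem_coe.1 hη)) h.1 h.2

/-- with a test function on the fibre `x1 = const` -/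
theorem sum_b_cs12 {c : Pt} (hc : c.2.2 ≠ 0) (k : ℕ) (p q : Pt) (Q : Finset (ℤ × ℤ))
    (d : ℤ × ℤ → ℝ) (J : Finset ℤ) (b : ℤ → ℝ) (x1 : ℤ) :
    ∑ θ ∈ Th c k p q, ∑ y ∈ J, (b y * cs Q (θ.1, θ.2.1) d (x1, y)) ^ 2 ≤
      (∑ y ∈ J, b y ^ 2) * ∑ w ∈ Q, d w ^ 2 := by
  rw [sum_comm, sum_mul]
  refine sum_le_sum fun y _ => ?_
  simp_rw [mul_pow, cs_pow two_ne_zero]
  rw [← mul_sum]
  exact mul_le_mul_of_nonneg_left (sum_cs12 hc k p q (fun _ => sq_nonneg _) _) (sq_nonneg _)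

theorem sum_b_cs13 {c : Pt} (hc : c.2.1 ≠ 0) (k : ℕ) (p q : Pt) (Q : Finset (ℤ × ℤ))
    (d : ℤ × ℤ → ℝ) (J : Finset ℤ) (b : ℤ → ℝ) (x1 : ℤ) :
    ∑ θ ∈ Th c k p q, ∑ y ∈ J, (b y * cs Q (θ.1, θ.2.2) d (x1, y)) ^ 2 ≤
      (∑ y ∈ J, b y ^ 2) * ∑ w ∈ Q, d w ^ 2 := by
  rw [sum_comm, sum_mul]
  refine sum_le_sum fun y _ => ?_
  simp_rw [mul_pow, cs_pow two_ne_zero]
  rw [← mul_sum]
  exact mul_le_mul_of_nonneg_left (sum_cs13 hc k p q (fun _ => sq_nonneg _) _) (sq_nonneg _)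

/-- Cauchy-Schwarz in the offsets -/
theorem cs_cs {c : Pt} (h2 : c.2.1 ≠ 0) (h3 : c.2.2 ≠ 0) (k : ℕ) (p q : Pt)
    (Q R : Finset (ℤ × ℤ)) (d e : ℤ × ℤ → ℝ) (J K : Finset ℤ) (b g : ℤ → ℝ) (x1 : ℤ) :
    ∑ θ ∈ Th c k p q, √(∑ y ∈ J, (b y * cs Q (θ.1, θ.2.1) d (x1, y)) ^ 2) *
        √(∑ z ∈ K, (g z * cs R (θ.1, θ.2.2) e (x1, z)) ^ 2) ≤
      √((∑ y ∈ J, b y ^ 2) * ∑ w ∈ Q, d w ^ 2) * √((∑ z ∈ K, g z ^ 2) * ∑ w ∈ R, e w ^ 2) := by
  refine (Real.sum_mul_le_sqrt_mul_sqrt _ _ _).trans ?_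
  refine mul_le_mul (Real.sqrt_le_sqrt ?_) (Real.sqrt_le_sqrt ?_) (Real.sqrt_nonneg _)
    (Real.sqrt_nonneg _)
  · refine le_trans (le_of_eq ?_) (sum_b_cs12 h3 k p q Q d J b x1)
    exact sum_congr rfl fun θ _ => Real.sq_sqrt (sum_nonneg fun _ _ => sq_nonneg _)
  · refine le_trans (le_of_eq ?_) (sum_b_cs13 h2 k p q R e K g x1)
    exact sum_congr rfl fun θ _ => Real.sq_sqrt (sum_nonneg fun _ _ => sq_nonneg _)

/-- **residual operator**: kernels `K θ` with operator norm `≤ τ` for every offset, multiplied by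
the two translated edges at `x1`, summed over the offsets -/
theorem op_shift {c : Pt} (h2 : c.2.1 ≠ 0) (h3 : c.2.2 ≠ 0) (k : ℕ) (p q : Pt)
    (Q R : Finset (ℤ × ℤ)) (d e : ℤ × ℤ → ℝ) (J K : Finset ℤ) (A : Pt → ℤ → ℤ → ℝ) {τ : ℝ}
    (hτ : 0 ≤ τ)
    (hA : ∀ θ ∈ Th c k p q, ∀ b g : ℤ → ℝ, |∑ y ∈ J, ∑ z ∈ K, b y * g z * A θ y z| ≤
      τ * √(∑ y ∈ J, b y ^ 2) * √(∑ z ∈ K, g z ^ 2)) (b g : ℤ → ℝ) (x1 : ℤ) :
    |∑ y ∈ J, ∑ z ∈ K, b y * g z * ∑ θ ∈ Th c k p q,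
        cs Q (θ.1, θ.2.1) d (x1, y) * cs R (θ.1, θ.2.2) e (x1, z) * A θ y z| ≤
      τ * (√((∑ y ∈ J, b y ^ 2) * ∑ w ∈ Q, d w ^ 2) *
        √((∑ z ∈ K, g z ^ 2) * ∑ w ∈ R, e w ^ 2)) := by
  have e1 : (∑ y ∈ J, ∑ z ∈ K, b y * g z * ∑ θ ∈ Th c k p q,
        cs Q (θ.1, θ.2.1) d (x1, y) * cs R (θ.1, θ.2.2) e (x1, z) * A θ y z) =
      ∑ θ ∈ Th c k p q, ∑ y ∈ J, ∑ z ∈ K, (b y * cs Q (θ.1, θ.2.1) d (x1, y)) *
        (g z * cs R (θ.1, θ.2.2) e (x1, z)) * A θ y z := by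
    rw [sum_comm (s := Th c k p q)]
    refine sum_congr rfl fun y _ => ?_
    rw [sum_comm (s := Th c k p q)]
    refine sum_congr rfl fun z _ => ?_
    rw [mul_sum]
    exact sum_congr rfl fun θ _ => by ring
  rw [e1]
  refine (abs_sum_le_sum_abs _ _).trans ?_
  calc _ ≤ ∑ θ ∈ Th c k p q, τ * (√(∑ y ∈ J, (b y * cs Q (θ.1, θ.2.1) d (x1, y)) ^ 2) *
        √(∑ z ∈ K, (g z * cs R (θ.1, θ.2.2) e (x1, z)) ^ 2)) := by
        refine sum_le_sum fun θ hθ => ?_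
        refine (hA θ hθ (fun y => b y * cs Q (θ.1, θ.2.1) d (x1, y))
          (fun z => g z * cs R (θ.1, θ.2.2) e (x1, z))).trans (le_of_eq ?_)
        ring
    _ = τ * ∑ θ ∈ Th c k p q, √(∑ y ∈ J, (b y * cs Q (θ.1, θ.2.1) d (x1, y)) ^ 2) *
        √(∑ z ∈ K, (g z * cs R (θ.1, θ.2.2) e (x1, z)) ^ 2) := by rw [mul_sum]
    _ ≤ _ := mul_le_mul_of_nonneg_left (cs_cs h2 h3 k p q Q R d e J K b g x1) hτ

end

end Vale.Agent.P141.H911
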