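import Vale.Agent.P141.PL.H855.Slots
import Vale.Agent.P141.PL.H314.Bridge
import Vale.Agent.P141.H337.Ridge2
import Vale.Agent.P141.H337.PairNorm

/-!
# P141, line W, (E-Z): the nodes as averages over the fibres

Roles: `σ 0`, `σ 1` are the faces of `P` and `G`, `σ 2`, `σ 3` the faces of `X` and `Y`; the fibre
`z = (x0, x1)` fixes the variables `σ 0` and `σ 1`, the variables `σ 2`, `σ 3` are free.
* `wN_box`: the value of the node of any box, in any order of the variables;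
* `abs_wN_le`: the value is at most the average over the fibres of the absolute value;
* `abs_wN_vz`: the same for the box over the cells `m0`, `m1`, `n`.
-/

namespace Vale.Agent.P141.H911

open Finset
open Vale.Agent.P141.PL.H620 (loc1 nn pts pt ell sg mo uu nn_sum loc1_nn)
open Vale.Agent.P141.PL.H855 (wN TT)
open Vale.Agent.P141.PL (hs)
open Vale.Agent.P141.PL.H314 (sum_pts hs_eq_sg)
open Vale.Agent.P141.PL.H315 (avg)
open Vale.Agent.P141.H337 (ivm mem_ivm card_ivm sum_long av2)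

noncomputable section

/-! ### The node of a box -/

/-- the node of a box -/
def nod (m : Fin 4 → ℤ) : ℤ := ∑ i : Fin 4, ((i : ℕ) : ℤ) * m i

theorem box_eq_nn {o : ℤ} {m : Fin 4 → ℤ} (hm : ∑ i, m i = o - 2) :
    m = nn o (nod m) (m 2) (m 3) := by
  rw [Fin.sum_univ_four] at hm
  funext i
  unfold nn nod
  simp only [Fin.sum_univ_four]
  fin_cases i
  · simp; linarith
  · simp; ring
  · simp
  · simp

theorem wN_nod {o : ℤ} {k : ℕ} {m : Fin 4 → ℤ} (hm : ∑ i, m i = o - 2) (f : Fin 4 → ℤ → ℝ) :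
    wN o f (k, nod m) = ((4 : ℝ) ^ k)⁻¹ * loc1 k m f := by
  unfold wN
  conv_rhs => rw [box_eq_nn hm]
  rw [loc1_nn, loc1_nn]

/-! ### Permutation of the variables -/

theorem sum_pts_perm (σ : Equiv.Perm (Fin 4)) (k : ℕ) (Φ : (Fin 4 → ℕ) → ℝ) :
    ∑ x ∈ pts k, Φ x = ∑ y ∈ pts k, Φ (y ∘ σ.symm) := by
  refine sum_bij' (fun x _ => x ∘ σ) (fun y _ => y ∘ σ.symm) ?_ ?_ ?_ ?_ ?_
  · intro x hx
    unfold pts at hx ⊢
    rw [Fintype.mem_piFinset] at hx ⊢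
    exact fun i => hx (σ i)
  · intro x hx
    unfold pts at hx ⊢
    rw [Fintype.mem_piFinset] at hx ⊢
    exact fun i => hx (σ.symm i)
  · intro x _
    funext i
    simp
  · intro x _
    funext i
    simp
  · intro x _
    congr 1
    funext i
    simp

/-- the linear form of the slot `s`, permuted variables -/
def elp (σ : Equiv.Perm (Fin 4)) (s : Fin 4) (x : Fin 4 → ℤ) : ℤ :=
  ∑ t : Fin 4, (((σ t : ℕ) : ℤ) - ((σ s : ℕ) : ℤ)) * x t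

theorem ell_perm (σ : Equiv.Perm (Fin 4)) (s : Fin 4) (z : Fin 4 → ℤ) :
    ell (σ s) z = elp σ s (z ∘ σ) := by
  unfold ell elp
  rw [← Equiv.sum_comp σ]
  rfl

theorem sum_ivm (k : ℕ) (m : ℤ) (φ : ℤ → ℝ) :
    ∑ x ∈ ivm k m, φ x = ∑ i ∈ range (2 ^ k), φ (2 ^ k * m + i) :=
  Vale.Agent.P141.PL.H314.sum_iv k m φ

/-- **the value of the node of a box, in any order of the variables** -/
theorem wN_box (σ : Equiv.Perm (Fin 4)) {o : ℤ} {k : ℕ} (hk : 1 ≤ k) {m : Fin 4 → ℤ}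
    (hm : ∑ i, m i = o - 2) (f : Fin 4 → ℤ → ℝ) :
    wN o f (k, nod m) = ((8 : ℝ) ^ k)⁻¹ *
      ∑ x0 ∈ ivm k (m (σ 0)), ∑ x1 ∈ ivm k (m (σ 1)), ∑ x2 ∈ ivm k (m (σ 2)),
        ∑ x3 ∈ ivm k (m (σ 3)), hs k x0 * hs k x1 * hs k x2 * hs k x3 *
          ∏ s, f (σ s) (elp σ s ![x0, x1, x2, x3]) := by
  rw [wN_nod hm]
  unfold loc1
  rw [← mul_assoc, ← mul_inv, ← mul_pow]
  norm_num only
  congr 1
  rw [sum_pts_perm σ, sum_pts, sum_ivm]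
  refine sum_congr rfl fun a ha => ?_
  rw [sum_ivm]
  refine sum_congr rfl fun b hb => ?_
  rw [sum_ivm]
  refine sum_congr rfl fun c hc => ?_
  rw [sum_ivm]
  refine sum_congr rfl fun d hd => ?_
  rw [mem_range] at ha hb hc hd
  rw [hs_eq_sg hk _ ha, hs_eq_sg hk _ hb, hs_eq_sg hk _ hc, hs_eq_sg hk _ hd]
  have e1 : (∏ i, sg k ((![a, b, c, d] ∘ σ.symm) i)) = sg k a * sg k b * sg k c * sg k d := by
    rw [← Equiv.prod_comp σ]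
    simp only [Function.comp_apply, Equiv.symm_apply_apply]
    rw [Fin.prod_univ_four]
    rfl
  have e2 : (∏ j, f j (ell j (pt k m (![a, b, c, d] ∘ σ.symm)))) =
      ∏ s, f (σ s) (elp σ s ![2 ^ k * m (σ 0) + (a : ℤ), 2 ^ k * m (σ 1) + (b : ℤ),
        2 ^ k * m (σ 2) + (c : ℤ), 2 ^ k * m (σ 3) + (d : ℤ)]) := by
    rw [← Equiv.prod_comp σ]
    refine prod_congr rfl fun s _ => ?_
    rw [ell_perm]
    congr 2
    funext t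
    simp only [Function.comp_apply, pt, Equiv.symm_apply_apply]
    fin_cases t <;> rfl
  rw [e1, e2]

/-! ### One fibre -/

/-- the difference of the indices of two faces -/
def dd (σ : Equiv.Perm (Fin 4)) (s t : Fin 4) : ℤ := ((σ t : ℕ) : ℤ) - ((σ s : ℕ) : ℤ)

/-- `P` on the fibre -/
def Pz (σ : Equiv.Perm (Fin 4)) (f : Fin 4 → ℤ → ℝ) (x1 x2 x3 : ℤ) : ℝ :=
  f (σ 0) (dd σ 0 1 * x1 + dd σ 0 2 * x2 + dd σ 0 3 * x3)

/-- `G` on the fibre -/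
def Gz (σ : Equiv.Perm (Fin 4)) (f : Fin 4 → ℤ → ℝ) (x0 x2 x3 : ℤ) : ℝ :=
  f (σ 1) (dd σ 1 0 * x0 + dd σ 1 2 * x2 + dd σ 1 3 * x3)

/-- `X` on the fibre -/
def Xz (σ : Equiv.Perm (Fin 4)) (f : Fin 4 → ℤ → ℝ) (x0 x1 x3 : ℤ) : ℝ :=
  f (σ 2) (dd σ 2 0 * x0 + dd σ 2 1 * x1 + dd σ 2 3 * x3)

/-- `Y` on the fibre -/
def Yz (σ : Equiv.Perm (Fin 4)) (f : Fin 4 → ℤ → ℝ) (x0 x1 x2 : ℤ) : ℝ :=
  f (σ 3) (dd σ 3 0 * x0 + dd σ 3 1 * x1 + dd σ 3 2 * x2)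

theorem prod_fz (σ : Equiv.Perm (Fin 4)) (f : Fin 4 → ℤ → ℝ) (x0 x1 x2 x3 : ℤ) :
    ∏ s, f (σ s) (elp σ s ![x0, x1, x2, x3]) =
      Pz σ f x1 x2 x3 * Gz σ f x0 x2 x3 * Xz σ f x0 x1 x3 * Yz σ f x0 x1 x2 := by
  rw [Fin.prod_univ_four]
  have h0 : elp σ 0 ![x0, x1, x2, x3] = dd σ 0 1 * x1 + dd σ 0 2 * x2 + dd σ 0 3 * x3 := by
    simp [elp, dd, Fin.sum_univ_four]
  have h1 : elp σ 1 ![x0, x1, x2, x3] = dd σ 1 0 * x0 + dd σ 1 2 * x2 + dd σ 1 3 * x3 := by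
    simp [elp, dd, Fin.sum_univ_four]
  have h2 : elp σ 2 ![x0, x1, x2, x3] = dd σ 2 0 * x0 + dd σ 2 1 * x1 + dd σ 2 3 * x3 := by
    simp [elp, dd, Fin.sum_univ_four]
  have h3 : elp σ 3 ![x0, x1, x2, x3] = dd σ 3 0 * x0 + dd σ 3 1 * x1 + dd σ 3 2 * x2 := by
    simp [elp, dd, Fin.sum_univ_four]
  rw [h0, h1, h2, h3]
  rfl

/-- the integrand of a fibre -/
def Fz (σ : Equiv.Perm (Fin 4)) (f : Fin 4 → ℤ → ℝ) (k : ℕ) (x0 x1 x2 x3 : ℤ) : ℝ :=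
  (hs k x2 * Yz σ f x0 x1 x2) * (Pz σ f x1 x2 x3 * Gz σ f x0 x2 x3) * (hs k x3 * Xz σ f x0 x1 x3)

theorem sum_av2 (k : ℕ) (n m : ℤ) (F : ℤ → ℤ → ℝ) :
    ∑ x ∈ ivm k n, ∑ y ∈ ivm k m, F x y = 4 ^ k * av2 (ivm k n) (ivm k m) F := by
  unfold av2 avg
  rw [card_ivm, card_ivm, ← mul_sum]
  have : (4 : ℝ) ^ k = 2 ^ k * 2 ^ k := by rw [← mul_pow]; norm_num
  rw [this]
  push_cast
  field_simp

/-- **the value of a node is at most the average over the fibres of a box** -/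
theorem abs_wN_le (σ : Equiv.Perm (Fin 4)) {o : ℤ} {k : ℕ} (hk : 1 ≤ k) {m : Fin 4 → ℤ}
    (hm : ∑ i, m i = o - 2) (f : Fin 4 → ℤ → ℝ) :
    |wN o f (k, nod m)| ≤ ((2 : ℝ) ^ k)⁻¹ * ∑ x0 ∈ ivm k (m (σ 0)), ∑ x1 ∈ ivm k (m (σ 1)),
      |av2 (ivm k (m (σ 2))) (ivm k (m (σ 3))) (Fz σ f k x0 x1)| := by
  rw [wN_box σ hk hm, abs_mul, abs_of_nonneg (by positivity : (0 : ℝ) ≤ ((8 : ℝ) ^ k)⁻¹)]
  have h8 : ((8 : ℝ) ^ k)⁻¹ = ((2 : ℝ) ^ k)⁻¹ * ((4 : ℝ) ^ k)⁻¹ := by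
    rw [← mul_inv, ← mul_pow]; norm_num
  rw [h8, mul_assoc]
  refine mul_le_mul_of_nonneg_left ?_ (by positivity)
  rw [inv_mul_le_iff₀ (by positivity), mul_sum]
  refine (abs_sum_le_sum_abs _ _).trans (sum_le_sum fun x0 _ => ?_)
  rw [mul_sum]
  refine (abs_sum_le_sum_abs _ _).trans (sum_le_sum fun x1 _ => ?_)
  have e1 : (∑ x2 ∈ ivm k (m (σ 2)), ∑ x3 ∈ ivm k (m (σ 3)), hs k x0 * hs k x1 * hs k x2 *
      hs k x3 * ∏ s, f (σ s) (elp σ s ![x0, x1, x2, x3])) = hs k x0 * hs k x1 *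
      ∑ x2 ∈ ivm k (m (σ 2)), ∑ x3 ∈ ivm k (m (σ 3)), Fz σ f k x0 x1 x2 x3 := by
    rw [mul_sum]
    refine sum_congr rfl fun x2 _ => ?_
    rw [mul_sum]
    refine sum_congr rfl fun x3 _ => ?_
    rw [prod_fz]
    unfold Fz
    ring
  rw [e1, abs_mul, abs_mul, Vale.Agent.P141.PL.abs_hs, Vale.Agent.P141.PL.abs_hs, one_mul, one_mul,
    sum_av2, abs_mul, abs_of_nonneg (by positivity : (0 : ℝ) ≤ (4 : ℝ) ^ k)]

/-! ### The boxes of a fibre -/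

/-- the matched cell -/
def qz (o m0 m1 n : ℤ) : ℤ := o - 2 - m0 - m1 - n

/-- the box over the cells `m0`, `m1`, `n` -/
def bz (σ : Equiv.Perm (Fin 4)) (o m0 m1 n : ℤ) : Fin 4 → ℤ := ![m0, m1, n, qz o m0 m1 n] ∘ σ.symm

/-- the node of the box over the cells `m0`, `m1`, `n` -/
def vz (σ : Equiv.Perm (Fin 4)) (o m0 m1 n : ℤ) : ℤ :=
  ((σ 0 : ℕ) : ℤ) * m0 + ((σ 1 : ℕ) : ℤ) * m1 + ((σ 2 : ℕ) : ℤ) * n +
    ((σ 3 : ℕ) : ℤ) * qz o m0 m1 n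

theorem bz_sum (σ : Equiv.Perm (Fin 4)) (o m0 m1 n : ℤ) : ∑ i, bz σ o m0 m1 n i = o - 2 := by
  rw [← Equiv.sum_comp σ]
  simp only [bz, Function.comp_apply, Equiv.symm_apply_apply, Fin.sum_univ_four]
  simp [qz]

theorem nod_bz (σ : Equiv.Perm (Fin 4)) (o m0 m1 n : ℤ) : nod (bz σ o m0 m1 n) = vz σ o m0 m1 n := by
  unfold nod
  rw [← Equiv.sum_comp σ]
  simp only [bz, Function.comp_apply, Equiv.symm_apply_apply, Fin.sum_univ_four]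
  simp [vz]

theorem vz_eq (σ : Equiv.Perm (Fin 4)) (o m0 m1 n : ℤ) : vz σ o m0 m1 n =
    ((σ 3 : ℕ) : ℤ) * (o - 2) + dd σ 3 0 * m0 + dd σ 3 1 * m1 + dd σ 3 2 * n := by
  unfold vz qz dd; ring

theorem dd_ne (σ : Equiv.Perm (Fin 4)) {s t : Fin 4} (h : s ≠ t) : dd σ s t ≠ 0 := by
  unfold dd
  intro h1
  have h2 : ((σ t : ℕ) : ℤ) = ((σ s : ℕ) : ℤ) := by linarith
  have h3 : (σ t : ℕ) = (σ s : ℕ) := by exact_mod_cast h2
  exact h (σ.injective (Fin.ext h3)).symm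

theorem vz_inj (σ : Equiv.Perm (Fin 4)) (o m0 m1 : ℤ) : Function.Injective (vz σ o m0 m1) := by
  intro n n' h
  rw [vz_eq, vz_eq] at h
  have h2 : dd σ 3 2 * n = dd σ 3 2 * n' := by linarith
  exact mul_left_cancel₀ (dd_ne σ (by decide)) h2

/-- **one node, one box of a fibre** -/
theorem abs_wN_vz (σ : Equiv.Perm (Fin 4)) {k : ℕ} (hk : 1 ≤ k) (o m0 m1 n : ℤ)
    (f : Fin 4 → ℤ → ℝ) :
    |wN o f (k, vz σ o m0 m1 n)| ≤ ((2 : ℝ) ^ k)⁻¹ * ∑ x0 ∈ ivm k m0, ∑ x1 ∈ ivm k m1,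
      |av2 (ivm k n) (ivm k (qz o m0 m1 n)) (Fz σ f k x0 x1)| := by
  have h := abs_wN_le σ hk (bz_sum σ o m0 m1 n) f
  rw [nod_bz] at h
  simpa [bz] using h

end

end Vale.Agent.P141.H911
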