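import Vale.Agent.P141.H911.Shift

/-!
# P141, line W, (E-SH) part 2: masses over the offsets, weights, sub-boxes

* `sum_inj4`, `sum_inj3`: for `c2 q3 - c3 q2 ≠ 0` the map
  `(θ, y, z) ↦ (x1 + θ1, y + θ2, z + θ3, s0 - q2 θ2 - q3 θ3)` on `{el c θ = 0}` is injective;
* `mass12`, `mass13`: two translated edges and a lift `g (s0 + q2 y + q3 z)` with line sums `≤ L`,
  summed over all offsets and the fibre, at EVERY `x1`, `s0`;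
* `n2_cs_le`, `n4_cs_le`, `nN_cs_le`, `pw3_uT_le`, `wP_uT_le`: weights of translated functions;
* `line_cs1`, `line_cs2`: pointwise line energies at a smaller scale after the translation.
-/

namespace Vale.Agent.P141.H911

open Finset
open Vale.Agent.P141.PL (Pt el)
open Vale.Agent.P141.PL.H315 (cube3 mem_cube3 gz card_cube3 avg iv mem_iv
  e12 e13 e23 Tri atm card_iv avg_nonneg)
open Vale.Agent.P141.PL.H560 (cs cs_of_mem cs_of_not_mem)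
open Vale.Agent.P141.PL.H318 (a1)
open Vale.Agent.P141.H922

noncomputable section

/-! ### Injectivity with the lift offset -/

theorem inj_det {c θ η : Pt} {q2 q3 : ℤ} (hm : c.2.1 * q3 - c.2.2 * q2 ≠ 0) (h1 : el c θ = 0)
    (h2 : el c η = 0) (e1 : θ.1 = η.1) (e2 : q2 * θ.2.1 + q3 * θ.2.2 = q2 * η.2.1 + q3 * η.2.2) :
    θ = η := by
  unfold el at h1 h2
  rw [e1] at h1
  have h3 : c.2.1 * (θ.2.1 - η.2.1) + c.2.2 * (θ.2.2 - η.2.2) = 0 := by linarith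
  have h4 : q2 * (θ.2.1 - η.2.1) + q3 * (θ.2.2 - η.2.2) = 0 := by linarith
  have h5 : (c.2.1 * q3 - c.2.2 * q2) * (θ.2.1 - η.2.1) = 0 := by
    linear_combination q3 * h3 - c.2.2 * h4
  have h6 : (c.2.1 * q3 - c.2.2 * q2) * (θ.2.2 - η.2.2) = 0 := by
    linear_combination c.2.1 * h4 - q2 * h3
  have h7 : θ.2.1 - η.2.1 = 0 := (mul_eq_zero.1 h5).resolve_left hm
  have h8 : θ.2.2 - η.2.2 = 0 := (mul_eq_zero.1 h6).resolve_left hm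
  exact Prod.ext e1 (Prod.ext (by linarith) (by linarith))

/-- the lift offset of `θ` -/
def so (q2 q3 s0 : ℤ) (θ : Pt) : ℤ := s0 - q2 * θ.2.1 - q3 * θ.2.2

/-- the lift identity -/
theorem so_add (q2 q3 s0 : ℤ) (θ : Pt) (y z : ℤ) :
    so q2 q3 s0 θ + q2 * (y + θ.2.1) + q3 * (z + θ.2.2) = s0 + q2 * y + q3 * z := by
  unfold so; ring

/-- **counting with the lift offset**, three coordinates -/
theorem sum_inj4 {c : Pt} {q2 q3 : ℤ} (hm : c.2.1 * q3 - c.2.2 * q2 ≠ 0) {Θ : Finset Pt}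
    (hΘ : ∀ θ ∈ Θ, el c θ = 0) (s0 x1 : ℤ) {S : Finset ℤ} (hS : ∀ θ ∈ Θ, so q2 q3 s0 θ ∈ S)
    (I1 I2 I3 J K : Finset ℤ) {Φ : ℤ → ℤ → ℤ → ℤ → ℝ} (hΦ : ∀ x y z s, 0 ≤ Φ x y z s) :
    (∑ θ ∈ Θ, ∑ y ∈ J, ∑ z ∈ K, if x1 + θ.1 ∈ I1 ∧ y + θ.2.1 ∈ I2 ∧ z + θ.2.2 ∈ I3 then
        Φ (x1 + θ.1) (y + θ.2.1) (z + θ.2.2) (so q2 q3 s0 θ) else 0) ≤
      ∑ x ∈ I1, ∑ y ∈ I2, ∑ z ∈ I3, ∑ s ∈ S, Φ x y z s := by
  classical
  have e1 : (∑ θ ∈ Θ, ∑ y ∈ J, ∑ z ∈ K,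
        if x1 + θ.1 ∈ I1 ∧ y + θ.2.1 ∈ I2 ∧ z + θ.2.2 ∈ I3 then
        Φ (x1 + θ.1) (y + θ.2.1) (z + θ.2.2) (so q2 q3 s0 θ) else 0) =
      ∑ w ∈ (Θ ×ˢ J ×ˢ K).filter (fun w => x1 + w.1.1 ∈ I1 ∧ w.2.1 + w.1.2.1 ∈ I2 ∧
        w.2.2 + w.1.2.2 ∈ I3), Φ (x1 + w.1.1) (w.2.1 + w.1.2.1) (w.2.2 + w.1.2.2)
          (so q2 q3 s0 w.1) := by
    rw [sum_filter, sum_product]
    refine sum_congr rfl fun θ _ => ?_
    rw [sum_product]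
  have e2 : (∑ x ∈ I1, ∑ y ∈ I2, ∑ z ∈ I3, ∑ s ∈ S, Φ x y z s) =
      ∑ v ∈ I1 ×ˢ I2 ×ˢ I3 ×ˢ S, Φ v.1 v.2.1 v.2.2.1 v.2.2.2 := by
    rw [sum_product]
    refine sum_congr rfl fun x _ => ?_
    rw [sum_product]
    refine sum_congr rfl fun y _ => ?_
    rw [sum_product]
  rw [e1, e2]
  set τ : Pt × ℤ × ℤ → ℤ × ℤ × ℤ × ℤ := fun w =>
    (x1 + w.1.1, w.2.1 + w.1.2.1, w.2.2 + w.1.2.2, so q2 q3 s0 w.1) with hτ
  have hinj : Set.InjOn τ ((Θ ×ˢ J ×ˢ K).filter (fun w => x1 + w.1.1 ∈ I1 ∧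
      w.2.1 + w.1.2.1 ∈ I2 ∧ w.2.2 + w.1.2.2 ∈ I3) : Finset (Pt × ℤ × ℤ)) := by
    intro w hw v hv h
    have hw' := (mem_product.1 (mem_filter.1 (mem_coe.1 hw)).1).1
    have hv' := (mem_product.1 (mem_filter.1 (mem_coe.1 hv)).1).1
    simp only [hτ, Prod.mk.injEq] at h
    obtain ⟨h1, h2, h3, h4⟩ := h
    have k1 : w.1.1 = v.1.1 := by linarith
    have k2 : q2 * w.1.2.1 + q3 * w.1.2.2 = q2 * v.1.2.1 + q3 * v.1.2.2 := by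
      unfold so at h4; linarith
    have k3 : w.1 = v.1 := inj_det hm (hΘ _ hw') (hΘ _ hv') k1 k2
    rw [k3] at h2 h3
    exact Prod.ext k3 (Prod.ext (by linarith) (by linarith))
  rw [← sum_image (f := fun v : ℤ × ℤ × ℤ × ℤ => Φ v.1 v.2.1 v.2.2.1 v.2.2.2) (g := τ) hinj]
  refine sum_le_sum_of_subset_of_nonneg ?_ fun _ _ _ => hΦ _ _ _ _
  intro v hv
  rw [mem_image] at hv
  obtain ⟨w, hw, rfl⟩ := hv
  have h := mem_filter.1 hw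
  rw [mem_product, mem_product, mem_product]
  exact ⟨h.2.1, h.2.2.1, h.2.2.2, hS _ (mem_product.1 h.1).1⟩

/-- **counting with the lift offset**, two coordinates `(1, 2)` -/
theorem sum_inj3 {c : Pt} {q2 q3 : ℤ} (hm : c.2.1 * q3 - c.2.2 * q2 ≠ 0) {Θ : Finset Pt}
    (hΘ : ∀ θ ∈ Θ, el c θ = 0) (s0 x1 : ℤ) {S : Finset ℤ} (hS : ∀ θ ∈ Θ, so q2 q3 s0 θ ∈ S)
    (I1 I2 J : Finset ℤ) {Φ : ℤ → ℤ → ℤ → ℝ} (hΦ : ∀ x y s, 0 ≤ Φ x y s) :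
    (∑ θ ∈ Θ, ∑ y ∈ J, if x1 + θ.1 ∈ I1 ∧ y + θ.2.1 ∈ I2 then
        Φ (x1 + θ.1) (y + θ.2.1) (so q2 q3 s0 θ) else 0) ≤
      ∑ x ∈ I1, ∑ y ∈ I2, ∑ s ∈ S, Φ x y s := by
  classical
  have e1 : (∑ θ ∈ Θ, ∑ y ∈ J, if x1 + θ.1 ∈ I1 ∧ y + θ.2.1 ∈ I2 then
        Φ (x1 + θ.1) (y + θ.2.1) (so q2 q3 s0 θ) else 0) =
      ∑ w ∈ (Θ ×ˢ J).filter (fun w => x1 + w.1.1 ∈ I1 ∧ w.2 + w.1.2.1 ∈ I2),
        Φ (x1 + w.1.1) (w.2 + w.1.2.1) (so q2 q3 s0 w.1) := by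
    rw [sum_filter, sum_product]
  have e2 : (∑ x ∈ I1, ∑ y ∈ I2, ∑ s ∈ S, Φ x y s) =
      ∑ v ∈ I1 ×ˢ I2 ×ˢ S, Φ v.1 v.2.1 v.2.2 := by
    rw [sum_product]
    refine sum_congr rfl fun x _ => ?_
    rw [sum_product]
  rw [e1, e2]
  set τ : Pt × ℤ → ℤ × ℤ × ℤ := fun w =>
    (x1 + w.1.1, w.2 + w.1.2.1, so q2 q3 s0 w.1) with hτ
  have hinj : Set.InjOn τ ((Θ ×ˢ J).filter (fun w => x1 + w.1.1 ∈ I1 ∧
      w.2 + w.1.2.1 ∈ I2) : Finset (Pt × ℤ)) := by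
    intro w hw v hv h
    have hw' := (mem_product.1 (mem_filter.1 (mem_coe.1 hw)).1).1
    have hv' := (mem_product.1 (mem_filter.1 (mem_coe.1 hv)).1).1
    simp only [hτ, Prod.mk.injEq] at h
    obtain ⟨h1, h2, h4⟩ := h
    have k1 : w.1.1 = v.1.1 := by linarith
    have k2 : q2 * w.1.2.1 + q3 * w.1.2.2 = q2 * v.1.2.1 + q3 * v.1.2.2 := by
      unfold so at h4; linarith
    have k3 : w.1 = v.1 := inj_det hm (hΘ _ hw') (hΘ _ hv') k1 k2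
    rw [k3] at h2
    exact Prod.ext k3 (by linarith)
  rw [← sum_image (f := fun v : ℤ × ℤ × ℤ => Φ v.1 v.2.1 v.2.2) (g := τ) hinj]
  refine sum_le_sum_of_subset_of_nonneg ?_ fun _ _ _ => hΦ _ _ _
  intro v hv
  rw [mem_image] at hv
  obtain ⟨w, hw, rfl⟩ := hv
  have h := mem_filter.1 hw
  rw [mem_product, mem_product]
  exact ⟨h.2.1, h.2.2, hS _ (mem_product.1 h.1).1⟩

/-- **alive mass, edges `(1,2)` and `(2,3)` with a lift**, every `x1`, `s0` -/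
theorem mass12 {c : Pt} {q2 q3 : ℤ} (hm : c.2.1 * q3 - c.2.2 * q2 ≠ 0) {Θ : Finset Pt}
    (hΘ : ∀ θ ∈ Θ, el c θ = 0) (s0 x1 : ℤ) {S : Finset ℤ} (hS : ∀ θ ∈ Θ, so q2 q3 s0 θ ∈ S)
    (I1 I2 I3 J K : Finset ℤ) {f f' : ℤ × ℤ → ℝ} (hf : ∀ w, 0 ≤ f w) (hf' : ∀ w, 0 ≤ f' w)
    {g : ℤ → ℝ} (hg : ∀ s, 0 ≤ g s) {L : ℝ} (hL : ∀ t, ∑ s ∈ S, g (s + t) ≤ L) :
    ∑ θ ∈ Θ, ∑ y ∈ J, ∑ z ∈ K, cs (I1 ×ˢ I2) (θ.1, θ.2.1) f (x1, y) *
        cs (I2 ×ˢ I3) (θ.2.1, θ.2.2) f' (y, z) * g (s0 + q2 * y + q3 * z) ≤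
      L * ∑ x ∈ I1, ∑ y ∈ I2, ∑ z ∈ I3, f (x, y) * f' (y, z) := by
  have h1 := sum_inj4 hm hΘ s0 x1 hS I1 I2 I3 J K
    (Φ := fun x y z s => f (x, y) * f' (y, z) * g (s + q2 * y + q3 * z))
    (fun x y z s => mul_nonneg (mul_nonneg (hf _) (hf' _)) (hg _))
  refine le_trans (le_of_eq ?_) (h1.trans ?_)
  · refine sum_congr rfl fun θ _ => sum_congr rfl fun y _ => sum_congr rfl fun z _ => ?_
    split_ifs with h
    · have g1 : ((x1, y).1 + (θ.1, θ.2.1).1, (x1, y).2 + (θ.1, θ.2.1).2) ∈ I1 ×ˢ I2 :=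
        mem_product.2 ⟨h.1, h.2.1⟩
      have g2 : ((y, z).1 + (θ.2.1, θ.2.2).1, (y, z).2 + (θ.2.1, θ.2.2).2) ∈ I2 ×ˢ I3 :=
        mem_product.2 ⟨h.2.1, h.2.2⟩
      rw [cs_of_mem g1, cs_of_mem g2, so_add]
    · by_cases g1 : ((x1, y).1 + (θ.1, θ.2.1).1, (x1, y).2 + (θ.1, θ.2.1).2) ∈ I1 ×ˢ I2
      · have g2 : ((y, z).1 + (θ.2.1, θ.2.2).1, (y, z).2 + (θ.2.1, θ.2.2).2) ∉ I2 ×ˢ I3 :=
          fun g2 => h ⟨(mem_product.1 g1).1, (mem_product.1 g1).2, (mem_product.1 g2).2⟩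
        rw [cs_of_not_mem g2]; ring
      · rw [cs_of_not_mem g1]; ring
  · rw [mul_sum]
    refine sum_le_sum fun x _ => ?_
    rw [mul_sum]
    refine sum_le_sum fun y _ => ?_
    rw [mul_sum]
    refine sum_le_sum fun z _ => ?_
    rw [← mul_sum, mul_comm L]
    refine mul_le_mul_of_nonneg_left ?_ (mul_nonneg (hf _) (hf' _))
    refine le_trans (le_of_eq ?_) (hL (q2 * y + q3 * z))
    exact sum_congr rfl fun s _ => by rw [add_assoc]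

/-- **alive mass, edges `(1,3)` and `(2,3)` with a lift**, every `x1`, `s0` -/
theorem mass13 {c : Pt} {q2 q3 : ℤ} (hm : c.2.1 * q3 - c.2.2 * q2 ≠ 0) {Θ : Finset Pt}
    (hΘ : ∀ θ ∈ Θ, el c θ = 0) (s0 x1 : ℤ) {S : Finset ℤ} (hS : ∀ θ ∈ Θ, so q2 q3 s0 θ ∈ S)
    (I1 I2 I3 J K : Finset ℤ) {f f' : ℤ × ℤ → ℝ} (hf : ∀ w, 0 ≤ f w) (hf' : ∀ w, 0 ≤ f' w)
    {g : ℤ → ℝ} (hg : ∀ s, 0 ≤ g s) {L : ℝ} (hL : ∀ t, ∑ s ∈ S, g (s + t) ≤ L) :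
    ∑ θ ∈ Θ, ∑ y ∈ J, ∑ z ∈ K, cs (I1 ×ˢ I3) (θ.1, θ.2.2) f (x1, z) *
        cs (I2 ×ˢ I3) (θ.2.1, θ.2.2) f' (y, z) * g (s0 + q2 * y + q3 * z) ≤
      L * ∑ x ∈ I1, ∑ y ∈ I2, ∑ z ∈ I3, f (x, z) * f' (y, z) := by
  have h1 := sum_inj4 hm hΘ s0 x1 hS I1 I2 I3 J K
    (Φ := fun x y z s => f (x, z) * f' (y, z) * g (s + q2 * y + q3 * z))
    (fun x y z s => mul_nonneg (mul_nonneg (hf _) (hf' _)) (hg _))
  refine le_trans (le_of_eq ?_) (h1.trans ?_)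
  · refine sum_congr rfl fun θ _ => sum_congr rfl fun y _ => sum_congr rfl fun z _ => ?_
    split_ifs with h
    · have g1 : ((x1, z).1 + (θ.1, θ.2.2).1, (x1, z).2 + (θ.1, θ.2.2).2) ∈ I1 ×ˢ I3 :=
        mem_product.2 ⟨h.1, h.2.2⟩
      have g2 : ((y, z).1 + (θ.2.1, θ.2.2).1, (y, z).2 + (θ.2.1, θ.2.2).2) ∈ I2 ×ˢ I3 :=
        mem_product.2 ⟨h.2.1, h.2.2⟩
      rw [cs_of_mem g1, cs_of_mem g2, so_add]
    · by_cases g1 : ((x1, z).1 + (θ.1, θ.2.2).1, (x1, z).2 + (θ.1, θ.2.2).2) ∈ I1 ×ˢ I3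
      · have g2 : ((y, z).1 + (θ.2.1, θ.2.2).1, (y, z).2 + (θ.2.1, θ.2.2).2) ∉ I2 ×ˢ I3 :=
          fun g2 => h ⟨(mem_product.1 g1).1, (mem_product.1 g2).1, (mem_product.1 g2).2⟩
        rw [cs_of_not_mem g2]; ring
      · rw [cs_of_not_mem g1]; ring
  · rw [mul_sum]
    refine sum_le_sum fun x _ => ?_
    rw [mul_sum]
    refine sum_le_sum fun y _ => ?_
    rw [mul_sum]
    refine sum_le_sum fun z _ => ?_
    rw [← mul_sum, mul_comm L]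
    refine mul_le_mul_of_nonneg_left ?_ (mul_nonneg (hf _) (hf' _))
    refine le_trans (le_of_eq ?_) (hL (q2 * y + q3 * z))
    exact sum_congr rfl fun s _ => by rw [add_assoc]

/-! ### Norms and weights of translated functions -/

/-- the sum over any set of a translated and cut function -/
theorem sum_cs_set_le {Q Q' : Finset (ℤ × ℤ)} (h : ℤ × ℤ) {f : ℤ × ℤ → ℝ}
    (hf : ∀ w, 0 ≤ f w) : ∑ x ∈ Q', cs Q h f x ≤ ∑ x ∈ Q, f x := by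
  classical
  set τ : ℤ × ℤ → ℤ × ℤ := fun w => (w.1 + h.1, w.2 + h.2) with hτ
  have e1 : ∑ x ∈ Q', cs Q h f x = ∑ x ∈ Q'.filter (fun x => τ x ∈ Q), f (τ x) := by
    rw [sum_filter]
    refine sum_congr rfl fun x _ => ?_
    split_ifs with hx
    · rw [cs_of_mem hx]
    · rw [cs_of_not_mem hx]
  rw [e1]
  have hinj : Set.InjOn τ (Q'.filter (fun x => τ x ∈ Q) : Finset _) := by
    intro x _ y _ hxy
    simp only [hτ, Prod.mk.injEq, add_left_inj] at hxy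
    exact Prod.ext hxy.1 hxy.2
  rw [← sum_image (f := f) (g := τ) hinj]
  refine sum_le_sum_of_subset_of_nonneg ?_ fun _ _ _ => hf _
  intro y hy
  rw [mem_image] at hy
  obtain ⟨x, hx, rfl⟩ := hy
  exact (mem_filter.mp hx).2

theorem avg_cs_pow_le {Q Q' : Finset (ℤ × ℤ)} (hc : Q'.card = Q.card) (h : ℤ × ℤ)
    (f : ℤ × ℤ → ℝ) {m : ℕ} (hm : Even m) (hm0 : m ≠ 0) :
    avg Q' (fun x => cs Q h f x ^ m) ≤ avg Q fun x => f x ^ m := by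
  unfold avg
  rw [hc]
  refine mul_le_mul_of_nonneg_left ?_ (by positivity)
  simp_rw [cs_pow hm0]
  exact sum_cs_set_le h fun w => hm.pow_nonneg _

theorem n2_cs_le {Q Q' : Finset (ℤ × ℤ)} (hc : Q'.card = Q.card) (h : ℤ × ℤ)
    (f : ℤ × ℤ → ℝ) : n2 Q' (cs Q h f) ≤ n2 Q f :=
  Real.sqrt_le_sqrt (avg_cs_pow_le hc h f (by decide) two_ne_zero)

theorem n4_cs_le {Q Q' : Finset (ℤ × ℤ)} (hc : Q'.card = Q.card) (h : ℤ × ℤ)
    (f : ℤ × ℤ → ℝ) : n4 Q' (cs Q h f) ≤ n4 Q f :=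
  Real.sqrt_le_sqrt (Real.sqrt_le_sqrt (avg_cs_pow_le hc h f (by decide) (by norm_num)))

theorem nN_cs_le {Q Q' : Finset (ℤ × ℤ)} (hc : Q'.card = Q.card) (h : ℤ × ℤ)
    (f : ℤ × ℤ → ℝ) : nN Q' (cs Q h f) ≤ nN Q f :=
  Real.sqrt_le_sqrt (mul_le_mul (n2_cs_le hc h f) (n4_cs_le hc h f) (n4_nonneg _ _)
    (n2_nonneg _ _))

theorem card_iv2 (k : ℕ) (a b a' b' : ℤ) :
    (iv k a ×ˢ iv k b).card = (iv k a' ×ˢ iv k b').card := by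
  rw [card_product, card_product, card_iv, card_iv, card_iv, card_iv]

/-- the bracket of the pair weight of a translated atom, on any cube of the same scale -/
theorem pw3_uT_le (k : ℕ) (p q θ : Pt) (u : Tri) :
    pw3 (cube3 k p) (uT k q θ u) ≤ pw3 (cube3 k q) u := by
  unfold pw3
  rw [nN_e12, nN_e13, nN_e23, n2_e12, n2_e13, n2_e23, nN_e12, nN_e13, nN_e23, n2_e12, n2_e13,
    n2_e23]
  have a1 := nN_cs_le (card_iv2 k p.1 p.2.1 q.1 q.2.1) (θ.1, θ.2.1) u.1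
  have a2 := nN_cs_le (card_iv2 k p.1 p.2.2 q.1 q.2.2) (θ.1, θ.2.2) u.2.1
  have a3 := nN_cs_le (card_iv2 k p.2.1 p.2.2 q.2.1 q.2.2) (θ.2.1, θ.2.2) u.2.2
  have b1 := n2_cs_le (card_iv2 k p.1 p.2.1 q.1 q.2.1) (θ.1, θ.2.1) u.1
  have b2 := n2_cs_le (card_iv2 k p.1 p.2.2 q.1 q.2.2) (θ.1, θ.2.2) u.2.1
  have b3 := n2_cs_le (card_iv2 k p.2.1 p.2.2 q.2.1 q.2.2) (θ.2.1, θ.2.2) u.2.2
  unfold uT
  simp only
  have c1 := nN_nonneg (iv k p.1 ×ˢ iv k p.2.1) (cs (iv k q.1 ×ˢ iv k q.2.1) (θ.1, θ.2.1) u.1)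
  have c2 := nN_nonneg (iv k p.1 ×ˢ iv k p.2.2) (cs (iv k q.1 ×ˢ iv k q.2.2) (θ.1, θ.2.2) u.2.1)
  have c3 := nN_nonneg (iv k p.2.1 ×ˢ iv k p.2.2)
    (cs (iv k q.2.1 ×ˢ iv k q.2.2) (θ.2.1, θ.2.2) u.2.2)
  have d1 := n2_nonneg (iv k p.1 ×ˢ iv k p.2.1) (cs (iv k q.1 ×ˢ iv k q.2.1) (θ.1, θ.2.1) u.1)
  have d2 := n2_nonneg (iv k p.1 ×ˢ iv k p.2.2) (cs (iv k q.1 ×ˢ iv k q.2.2) (θ.1, θ.2.2) u.2.1)
  have d3 := n2_nonneg (iv k p.2.1 ×ˢ iv k p.2.2)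
    (cs (iv k q.2.1 ×ˢ iv k q.2.2) (θ.2.1, θ.2.2) u.2.2)
  have f1 := nN_nonneg (iv k q.1 ×ˢ iv k q.2.1) u.1
  have f2 := nN_nonneg (iv k q.1 ×ˢ iv k q.2.2) u.2.1
  have f3 := nN_nonneg (iv k q.2.1 ×ˢ iv k q.2.2) u.2.2
  gcongr

/-- the pair weight of a translated atom, on any cube of the same scale -/
theorem wP_uT_le {δ : ℝ} (hδ : 0 ≤ δ) (k : ℕ) (p q θ : Pt) (u : Tri) :
    wP δ (cube3 k p) (uT k q θ u) ≤ wP δ (cube3 k q) u := by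
  unfold wP
  rw [card_cube3, card_cube3]
  exact mul_le_mul_of_nonneg_left (pw3_uT_le k p q θ u) (by positivity)

/-! ### Smaller scales: a translated interval meets two intervals -/

theorem shift_iv {l : ℕ} {a x : ℤ} (t : ℤ) (hx : x ∈ iv l a) :
    x + t ∈ iv l (2 ^ l * (a / 2 ^ l) + t) ∨ x + t ∈ iv l (2 ^ l * (a / 2 ^ l) + t + 2 ^ l) := by
  have h2 : (0 : ℤ) < 2 ^ l := by positivity
  unfold iv at hx ⊢
  rw [mem_Ico] at hx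
  rw [mem_Ico, mem_Ico]
  have e1 : (2 ^ l * (a / 2 ^ l) + t + 2 ^ l) / 2 ^ l = (2 ^ l * (a / 2 ^ l) + t) / 2 ^ l + 1 := by
    rw [Int.add_ediv_of_dvd_right (dvd_refl _), Int.ediv_self h2.ne']
  rw [e1]
  set A := 2 ^ l * (a / 2 ^ l) with hA
  have h3 := Int.mul_ediv_add_emod (A + t) (2 ^ l)
  have h4 := Int.emod_nonneg (A + t) h2.ne'
  have h5 := Int.emod_lt_of_pos (A + t) h2
  by_cases h : x + t < 2 ^ l * ((A + t) / 2 ^ l) + 2 ^ l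
  · left
    exact ⟨by linarith, h⟩
  · right
    rw [mul_add, mul_one]
    exact ⟨by linarith, by linarith⟩

/-- a one-dimensional sum over a translated interval of scale `l` -/
theorem sum_shift_iv {l : ℕ} (a t : ℤ) {φ : ℤ → ℝ} (hφ : ∀ x, 0 ≤ φ x) :
    ∑ x ∈ iv l a, φ (x + t) ≤ ∑ x ∈ iv l (2 ^ l * (a / 2 ^ l) + t), φ x +
      ∑ x ∈ iv l (2 ^ l * (a / 2 ^ l) + t + 2 ^ l), φ x := by
  classical
  have h1 : ∑ x ∈ iv l a, φ (x + t) = ∑ y ∈ (iv l a).image (fun x => x + t), φ y := by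
    rw [sum_image]
    intro x _ y _ h
    simpa using h
  rw [h1]
  calc _ ≤ ∑ y ∈ iv l (2 ^ l * (a / 2 ^ l) + t) ∪ iv l (2 ^ l * (a / 2 ^ l) + t + 2 ^ l), φ y := by
        refine sum_le_sum_of_subset_of_nonneg ?_ fun _ _ _ => hφ _
        intro y hy
        rw [mem_image] at hy
        obtain ⟨x, hx, rfl⟩ := hy
        exact mem_union.2 (shift_iv t hx)
    _ ≤ _ := by
        rw [← sum_union_inter]
        have := sum_nonneg (s := iv l (2 ^ l * (a / 2 ^ l) + t) ∩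
          iv l (2 ^ l * (a / 2 ^ l) + t + 2 ^ l)) fun x _ => hφ x
        linarith

/-- pointwise line energies (first variable) of a translated function -/
theorem line_cs1 {l : ℕ} {I J : Finset ℤ} {h : ℤ × ℤ} {f : ℤ × ℤ → ℝ} (hf : ∀ w, 0 ≤ f w)
    {B : ℝ} (hB : 0 ≤ B)
    (hl : ∀ b, ∀ y ∈ J, ∑ x ∈ iv l b, (if x ∈ I then f (x, y) else 0) ≤ B) (a y : ℤ) :
    ∑ x ∈ iv l a, cs (I ×ˢ J) h f (x, y) ≤ 2 * B := by
  classical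
  by_cases hy : y + h.2 ∈ J
  · have e1 : ∀ x ∈ iv l a, cs (I ×ˢ J) h f (x, y) =
        (fun z => if z ∈ I then f (z, y + h.2) else 0) (x + h.1) := by
      intro x _
      simp only
      split_ifs with hx
      · have g : ((x, y).1 + h.1, (x, y).2 + h.2) ∈ I ×ˢ J := mem_product.2 ⟨hx, hy⟩
        rw [cs_of_mem g]
      · exact cs_of_not_mem fun g => hx (mem_product.1 g).1
    rw [sum_congr rfl e1]
    refine (sum_shift_iv a h.1 (φ := fun z => if z ∈ I then f (z, y + h.2) else 0) ?_).trans ?_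
    · intro x
      split_ifs
      · exact hf _
      · exact le_rfl
    · have := hl (2 ^ l * (a / 2 ^ l) + h.1) _ hy
      have := hl (2 ^ l * (a / 2 ^ l) + h.1 + 2 ^ l) _ hy
      linarith
  · have e1 : ∀ x ∈ iv l a, cs (I ×ˢ J) h f (x, y) = 0 := by
      intro x _
      exact cs_of_not_mem fun g => hy (mem_product.1 g).2
    rw [sum_congr rfl e1, sum_const_zero]
    linarith

/-- pointwise line energies (second variable) of a translated function -/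
theorem line_cs2 {l : ℕ} {I J : Finset ℤ} {h : ℤ × ℤ} {f : ℤ × ℤ → ℝ} (hf : ∀ w, 0 ≤ f w)
    {B : ℝ} (hB : 0 ≤ B)
    (hl : ∀ b, ∀ x ∈ I, ∑ y ∈ iv l b, (if y ∈ J then f (x, y) else 0) ≤ B) (a x : ℤ) :
    ∑ y ∈ iv l a, cs (I ×ˢ J) h f (x, y) ≤ 2 * B := by
  classical
  by_cases hx : x + h.1 ∈ I
  · have e1 : ∀ y ∈ iv l a, cs (I ×ˢ J) h f (x, y) =
        (fun z => if z ∈ J then f (x + h.1, z) else 0) (y + h.2) := by
      intro y _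
      simp only
      split_ifs with hy
      · have g : ((x, y).1 + h.1, (x, y).2 + h.2) ∈ I ×ˢ J := mem_product.2 ⟨hx, hy⟩
        rw [cs_of_mem g]
      · exact cs_of_not_mem fun g => hy (mem_product.1 g).2
    rw [sum_congr rfl e1]
    refine (sum_shift_iv a h.2 (φ := fun z => if z ∈ J then f (x + h.1, z) else 0) ?_).trans ?_
    · intro y
      split_ifs
      · exact hf _
      · exact le_rfl
    · have := hl (2 ^ l * (a / 2 ^ l) + h.2) _ hx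
      have := hl (2 ^ l * (a / 2 ^ l) + h.2 + 2 ^ l) _ hx
      linarith
  · have e1 : ∀ y ∈ iv l a, cs (I ×ˢ J) h f (x, y) = 0 := by
      intro y _
      exact cs_of_not_mem fun g => hx (mem_product.1 g).1
    rw [sum_congr rfl e1, sum_const_zero]
    linarith

end

end Vale.Agent.P141.H911
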