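import Vale.Agent.P141.H911.Box
import Vale.Agent.P141.H911.Shift2

/-!
# P141, line W: the coefficients of the four lifts of a box, any order `σ`

`lc σ 0 = (p1, p2, p3)`, `q2 = dd σ 1 2`, `q3 = dd σ 1 3`: `p2 q3 - p3 q2 = m p1`, `m = dd σ 2 3`.
-/

namespace Vale.Agent.P141.H911

open Vale.Agent.P141.PL (Pt el)

/-- the relation of the coefficients of `P` and `G` -/
theorem det_eq (σ : Equiv.Perm (Fin 4)) :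
    (lc σ 0).2.1 * dd σ 1 3 - (lc σ 0).2.2 * dd σ 1 2 = dd σ 2 3 * (lc σ 0).1 := by
  simp only [lc, dd]; ring

theorem lc0_ne1 (σ : Equiv.Perm (Fin 4)) : (lc σ 0).1 ≠ 0 := dd_ne σ (by decide)
theorem lc0_ne2 (σ : Equiv.Perm (Fin 4)) : (lc σ 0).2.1 ≠ 0 := dd_ne σ (by decide)
theorem lc0_ne3 (σ : Equiv.Perm (Fin 4)) : (lc σ 0).2.2 ≠ 0 := dd_ne σ (by decide)

theorem det_ne (σ : Equiv.Perm (Fin 4)) :
    (lc σ 0).2.1 * dd σ 1 3 - (lc σ 0).2.2 * dd σ 1 2 ≠ 0 := by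
  rw [det_eq]
  exact mul_ne_zero (dd_ne σ (by decide)) (lc0_ne1 σ)

/-- all the coefficients are at most `3` in absolute value -/
theorem lc_le (σ : Equiv.Perm (Fin 4)) (s : Fin 4) :
    |(lc σ s).1| ≤ 3 ∧ |(lc σ s).2.1| ≤ 3 ∧ |(lc σ s).2.2| ≤ 3 := by
  fin_cases s
  · exact ⟨dd_le σ 0 1, dd_le σ 0 2, dd_le σ 0 3⟩
  · exact ⟨dd_le σ 1 0, dd_le σ 1 2, dd_le σ 1 3⟩
  · exact ⟨dd_le σ 2 0, dd_le σ 2 1, dd_le σ 2 3⟩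
  · exact ⟨dd_le σ 3 0, dd_le σ 3 1, dd_le σ 3 2⟩

theorem lc_ne (σ : Equiv.Perm (Fin 4)) (s : Fin 4) :
    (lc σ s).1 ≠ 0 ∧ (lc σ s).2.1 ≠ 0 ∧ (lc σ s).2.2 ≠ 0 := by
  fin_cases s
  · exact ⟨dd_ne σ (by decide), dd_ne σ (by decide), dd_ne σ (by decide)⟩
  · exact ⟨dd_ne σ (by decide), dd_ne σ (by decide), dd_ne σ (by decide)⟩
  · exact ⟨dd_ne σ (by decide), dd_ne σ (by decide), dd_ne σ (by decide)⟩
  · exact ⟨dd_ne σ (by decide), dd_ne σ (by decide), dd_ne σ (by decide)⟩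

/-- `P` and `G` on a fibre in the letters of the pair norm -/
theorem Pz_eq (σ : Equiv.Perm (Fin 4)) (f : Fin 4 → ℤ → ℝ) (x1 x2 x3 : ℤ) :
    Pz σ f x1 x2 x3 = f (σ 0) (el (lc σ 0) (x1, x2, x3)) := rfl

theorem Gz_eq (σ : Equiv.Perm (Fin 4)) (f : Fin 4 → ℤ → ℝ) (x0 x2 x3 : ℤ) :
    Gz σ f x0 x2 x3 = f (σ 1) (dd σ 1 0 * x0 + dd σ 1 2 * x2 + dd σ 1 3 * x3) := rfl

theorem Gz_eq' (σ : Equiv.Perm (Fin 4)) (f : Fin 4 → ℤ → ℝ) (x0 x2 x3 : ℤ) :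
    Gz σ f x0 x2 x3 = f (σ 1) (el (lc σ 1) (x0, x2, x3)) := rfl

end Vale.Agent.P141.H911
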