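import Vale.Agent.P141.H911.Fibre2
import Vale.Agent.P141.PL.H95.Grid

/-!
# P141, line W, (SP): the nodes as boxes

* `wN_loc`: the value of the node of a box is the local form `loc` of the four lifts, any order of
  the faces;
* `TT_box`: the total of the nodes is (equality) `|σ 2 - σ 3| (36 · 4^K)⁻¹ ∑_k 2^(-k) ∑ |loc k m ..|`
  over the boxes whose first two cells are in `[0, 6 · 2^(K-k))`;
* `nodes_box`: the same for a density of the nodes;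
* `TT_roots`: the same with the boxes sorted by their roots of scale `K`;
* `mem_roots`, `card_roots`: a finite set of roots for the nodes in one cell of `gr 7 s`.
-/

namespace Vale.Agent.P141.H911

open Finset
open Vale.Agent.P141.PL (Pt Bx hs el loc prd ix bxs)
open Vale.Agent.P141.PL.H855 (wN TT)
open Vale.Agent.P141.PL.H571 (W)
open Vale.Agent.P141.PL.H95 (gr)
open Vale.Agent.P141.PL.H315 (avg)
open Vale.Agent.P141.H337 (ivm mem_ivm card_ivm sum_long av2)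

noncomputable section

/-- the coefficients of the slot `s`; variables in the order `σ` -/
def lc (σ : Equiv.Perm (Fin 4)) : Fin 4 → Pt
  | 0 => (dd σ 0 1, dd σ 0 2, dd σ 0 3)
  | 1 => (dd σ 1 0, dd σ 1 2, dd σ 1 3)
  | 2 => (dd σ 2 0, dd σ 2 1, dd σ 2 3)
  | 3 => (dd σ 3 0, dd σ 3 1, dd σ 3 2)

/-- the lift of the slot `s` -/
def lf (σ : Equiv.Perm (Fin 4)) (s : Fin 4) (f : Fin 4 → ℤ → ℝ) : Pt → ℝ :=
  fun p => f (σ s) (el (lc σ s) p)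

/-- the local form of the box `m` for the order `σ` -/
def LB (σ : Equiv.Perm (Fin 4)) (f : Fin 4 → ℤ → ℝ) (k : ℕ) (m : Bx) : ℝ :=
  loc k m (lf σ 0 f) (lf σ 1 f) (lf σ 2 f) (lf σ 3 f)

/-- **the value of the node of a box** -/
theorem wN_loc (σ : Equiv.Perm (Fin 4)) {k : ℕ} (hk : 1 ≤ k) (o m0 m1 n : ℤ)
    (f : Fin 4 → ℤ → ℝ) :
    wN o f (k, vz σ o m0 m1 n) = ((8 : ℝ) ^ k)⁻¹ * LB σ f k (m0, m1, n, qz o m0 m1 n) := by
  have h := wN_box σ hk (bz_sum σ o m0 m1 n) f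
  rw [nod_bz] at h
  rw [h]
  congr 1
  unfold LB loc
  simp only [bz, Function.comp_apply, Equiv.symm_apply_apply]
  refine sum_congr rfl fun x0 _ => sum_congr rfl fun x1 _ => sum_congr rfl fun x2 _ =>
    sum_congr rfl fun x3 _ => ?_
  rw [prod_fz]
  congr 1

/-- **(SP)**: the total of the nodes as a sum over boxes (an equality) -/
theorem TT_box (σ : Equiv.Perm (Fin 4)) (o : ℤ) {K : ℕ} {nd : Finset (ℕ × ℤ)}
    (hnd : ∀ N ∈ nd, 1 ≤ N.1 ∧ N.1 ≤ K) (A : Fin 4 → ℕ → ℤ → ℝ) :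
    TT o nd (fun s N => A s N.1) = (|dd σ 3 2| : ℤ) * ((36 * (4 : ℝ) ^ K)⁻¹ *
      ∑ k ∈ Icc 1 K, ((2 : ℝ) ^ k)⁻¹ * ∑ m0 ∈ Ico (0 : ℤ) (6 * 2 ^ (K - k)),
        ∑ m1 ∈ Ico (0 : ℤ) (6 * 2 ^ (K - k)), ∑ n ∈ Uz σ o (vk nd k) m0 m1,
          |LB σ (fun s => A s k) k (m0, m1, n, qz o m0 m1 n)|) := by
  unfold TT
  rw [sum_scales hnd (fun N => |wN o (fun s => A s N.1) N|), mul_sum, mul_sum]
  refine sum_congr rfl fun k hk => ?_
  have hk1 := (mem_Icc.1 hk).1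
  have hkK := (mem_Icc.1 hk).2
  have h1 := sum_nodes σ o (vk nd k) (N := 2 ^ (K - k)) (by positivity)
    (fun v => |wN o (fun s => A s k) (k, v)|)
  have h4 : ((2 : ℝ) ^ (K - k)) ^ 2 * 4 ^ k = 4 ^ K := by
    rw [← pow_mul, mul_comm (K - k) 2, pow_mul]
    norm_num only
    rw [← pow_add, Nat.sub_add_cancel hkK]
  have h5 : ∑ v ∈ vk nd k, |wN o (fun s => A s k) (k, v)| =
      (36 * ((2 : ℝ) ^ (K - k)) ^ 2)⁻¹ *
      (36 * ((2 : ℝ) ^ (K - k)) ^ 2 * ∑ v ∈ vk nd k, |wN o (fun s => A s k) (k, v)|) := by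
    field_simp
  have h2 : ∑ m0 ∈ Ico (0 : ℤ) (6 * 2 ^ (K - k)), ∑ m1 ∈ Ico (0 : ℤ) (6 * 2 ^ (K - k)),
      ∑ n ∈ Uz σ o (vk nd k) m0 m1, |wN o (fun s => A s k) (k, vz σ o m0 m1 n)| =
      ((8 : ℝ) ^ k)⁻¹ * ∑ m0 ∈ Ico (0 : ℤ) (6 * 2 ^ (K - k)),
        ∑ m1 ∈ Ico (0 : ℤ) (6 * 2 ^ (K - k)), ∑ n ∈ Uz σ o (vk nd k) m0 m1,
          |LB σ (fun s => A s k) k (m0, m1, n, qz o m0 m1 n)| := by
    rw [mul_sum]
    refine sum_congr rfl fun m0 _ => ?_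
    rw [mul_sum]
    refine sum_congr rfl fun m1 _ => ?_
    rw [mul_sum]
    refine sum_congr rfl fun n _ => ?_
    rw [wN_loc σ hk1, abs_mul, abs_of_nonneg (by positivity : (0 : ℝ) ≤ ((8 : ℝ) ^ k)⁻¹)]
  push_cast at h1
  rw [h5, h1, h2, ← h4]
  have e4 : (4 : ℝ) ^ k = 2 ^ k * 2 ^ k := by rw [← mul_pow]; norm_num
  have e8 : (8 : ℝ) ^ k = 2 ^ k * 2 ^ k * 2 ^ k := by rw [← mul_pow, ← mul_pow]; norm_num
  rw [e4, e8]
  push_cast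
  field_simp

/-- **the density of the nodes as a density of the boxes** (an equality) -/
theorem nodes_box (σ : Equiv.Perm (Fin 4)) (o : ℤ) {K : ℕ} {nd : Finset (ℕ × ℤ)}
    (hnd : ∀ N ∈ nd, 1 ≤ N.1 ∧ N.1 ≤ K) (ψ : ℕ → ℤ → ℝ) :
    ∑ N ∈ nd, ψ N.1 N.2 = (|dd σ 3 2| : ℤ) * ((36 * (4 : ℝ) ^ K)⁻¹ *
      ∑ k ∈ Icc 1 K, (4 : ℝ) ^ k * ∑ m0 ∈ Ico (0 : ℤ) (6 * 2 ^ (K - k)),
        ∑ m1 ∈ Ico (0 : ℤ) (6 * 2 ^ (K - k)), ∑ n ∈ Uz σ o (vk nd k) m0 m1,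
          ψ k (vz σ o m0 m1 n)) := by
  rw [sum_scales hnd (fun N => ψ N.1 N.2), mul_sum, mul_sum]
  refine sum_congr rfl fun k hk => ?_
  have hkK := (mem_Icc.1 hk).2
  have h1 := sum_nodes σ o (vk nd k) (N := 2 ^ (K - k)) (by positivity) (ψ k)
  have h4 : ((2 : ℝ) ^ (K - k)) ^ 2 * 4 ^ k = 4 ^ K := by
    rw [← pow_mul, mul_comm (K - k) 2, pow_mul]
    norm_num only
    rw [← pow_add, Nat.sub_add_cancel hkK]
  have h5 : ∑ v ∈ vk nd k, ψ k v = (36 * ((2 : ℝ) ^ (K - k)) ^ 2)⁻¹ *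
      (36 * ((2 : ℝ) ^ (K - k)) ^ 2 * ∑ v ∈ vk nd k, ψ k v) := by
    field_simp
  push_cast at h1
  rw [h5, h1, ← h4]
  push_cast
  field_simp

/-! ### Sorting by the roots -/

/-- the node of a box, order `σ` -/
def nb (σ : Equiv.Perm (Fin 4)) (m : Bx) : ℤ :=
  ((σ 0 : ℕ) : ℤ) * m.1 + ((σ 1 : ℕ) : ℤ) * m.2.1 + ((σ 2 : ℕ) : ℤ) * m.2.2.1 +
    ((σ 3 : ℕ) : ℤ) * m.2.2.2

/-- the root of scale `K` of a box of scale `k` -/
def rt (K k : ℕ) (m : Bx) : Bx :=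
  (ix (K - k) m.1, ix (K - k) m.2.1, ix (K - k) m.2.2.1, ix (K - k) m.2.2.2)

open scoped Classical in
/-- the used boxes of scale `k` in a root -/
def ub (σ : Equiv.Perm (Fin 4)) (o : ℤ) (nd : Finset (ℕ × ℤ)) (K : ℕ) (R : Bx) (k : ℕ) :
    Finset Bx := (bxs K R o k).filter fun m => (k, nb σ m) ∈ nd

theorem mem_ub {σ : Equiv.Perm (Fin 4)} {o : ℤ} {nd : Finset (ℕ × ℤ)} {K : ℕ} {R : Bx} {k : ℕ}
    {m : Bx} : m ∈ ub σ o nd K R k ↔ rt K k m = R ∧ m.1 + m.2.1 + m.2.2.1 + m.2.2.2 = o - 2 ∧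
      (k, nb σ m) ∈ nd := by
  unfold ub bxs rt
  rw [mem_filter, mem_filter, mem_product, mem_product, mem_product, PL.mem_iv, PL.mem_iv,
    PL.mem_iv, PL.mem_iv]
  constructor
  · rintro ⟨⟨⟨h1, h2, h3, h4⟩, h5⟩, h6⟩
    exact ⟨by rw [h1, h2, h3, h4], h5, h6⟩
  · rintro ⟨rfl, h5, h6⟩
    exact ⟨⟨⟨rfl, rfl, rfl, rfl⟩, h5⟩, h6⟩

/-- sum over the boxes sorted by the roots -/
theorem sum_sort (σ : Equiv.Perm (Fin 4)) (o : ℤ) (nd : Finset (ℕ × ℤ)) {K k : ℕ}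
    (RR : Finset Bx) {N : ℤ}
    (hR : ∀ m0 ∈ Ico (0 : ℤ) N, ∀ m1 ∈ Ico (0 : ℤ) N, ∀ n ∈ Uz σ o (vk nd k) m0 m1,
      rt K k (m0, m1, n, qz o m0 m1 n) ∈ RR) {Φ : Bx → ℝ} (hΦ : ∀ m, 0 ≤ Φ m) :
    ∑ m0 ∈ Ico (0 : ℤ) N, ∑ m1 ∈ Ico (0 : ℤ) N, ∑ n ∈ Uz σ o (vk nd k) m0 m1,
      Φ (m0, m1, n, qz o m0 m1 n) ≤ ∑ R ∈ RR, ∑ m ∈ ub σ o nd K R k, Φ m := by
  classical
  set T : Finset (ℤ × ℤ × ℤ) := (Ico (0 : ℤ) N).biUnion fun m0 => (Ico (0 : ℤ) N).biUnion fun m1 =>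
    (Uz σ o (vk nd k) m0 m1).image fun n => (m0, m1, n) with hT
  have e1 : ∑ m0 ∈ Ico (0 : ℤ) N, ∑ m1 ∈ Ico (0 : ℤ) N, ∑ n ∈ Uz σ o (vk nd k) m0 m1,
      Φ (m0, m1, n, qz o m0 m1 n) = ∑ w ∈ T, Φ (w.1, w.2.1, w.2.2, qz o w.1 w.2.1 w.2.2) := by
    rw [hT, sum_biUnion]
    · refine sum_congr rfl fun m0 _ => ?_
      rw [sum_biUnion]
      · refine sum_congr rfl fun m1 _ => ?_
        rw [sum_image]
        intro a _ b _ h
        simpa using h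
      · intro a _ b _ hab
        rw [Function.onFun, disjoint_left]
        intro w h1 h2
        obtain ⟨_, _, rfl⟩ := mem_image.1 h1
        obtain ⟨_, _, h⟩ := mem_image.1 h2
        simp only [Prod.mk.injEq] at h
        exact hab h.2.1.symm
    · intro a _ b _ hab
      rw [Function.onFun, disjoint_left]
      intro w h1 h2
      obtain ⟨_, _, h1⟩ := mem_biUnion.1 h1
      obtain ⟨_, _, h2⟩ := mem_biUnion.1 h2
      obtain ⟨_, _, rfl⟩ := mem_image.1 h1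
      obtain ⟨_, _, h⟩ := mem_image.1 h2
      simp only [Prod.mk.injEq] at h
      exact hab h.1.symm
  have e2 : ∑ R ∈ RR, ∑ m ∈ ub σ o nd K R k, Φ m = ∑ m ∈ RR.biUnion fun R => ub σ o nd K R k,
      Φ m := by
    rw [sum_biUnion]
    intro a _ b _ hab
    rw [Function.onFun, disjoint_left]
    intro m h1 h2
    exact hab ((mem_ub.1 h1).1.symm.trans (mem_ub.1 h2).1)
  rw [e1, e2]
  have hinj : Set.InjOn (fun w : ℤ × ℤ × ℤ => ((w.1, w.2.1, w.2.2, qz o w.1 w.2.1 w.2.2) : Bx))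
      T := by
    intro a _ b _ h
    simp only [Prod.mk.injEq] at h
    exact Prod.ext h.1 (Prod.ext h.2.1 h.2.2.1)
  rw [← sum_image (f := Φ)
    (g := fun w : ℤ × ℤ × ℤ => ((w.1, w.2.1, w.2.2, qz o w.1 w.2.1 w.2.2) : Bx)) hinj]
  refine sum_le_sum_of_subset_of_nonneg ?_ fun m _ _ => hΦ m
  intro m hm
  obtain ⟨w, hw, rfl⟩ := mem_image.1 hm
  rw [hT] at hw
  obtain ⟨m0, h0, hw⟩ := mem_biUnion.1 hw
  obtain ⟨m1, h1, hw⟩ := mem_biUnion.1 hw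
  obtain ⟨n, hn, rfl⟩ := mem_image.1 hw
  refine mem_biUnion.2 ⟨_, hR m0 h0 m1 h1 n hn, mem_ub.2 ⟨rfl, ?_, ?_⟩⟩
  · simp only [qz]; ring
  · exact mem_vk.1 (mem_Uz.1 hn)

/-- **(SP), roots**: the total of the nodes is at most the sum over the roots of `RR` of the used
boxes -/
theorem TT_roots (σ : Equiv.Perm (Fin 4)) (o : ℤ) {K : ℕ} {nd : Finset (ℕ × ℤ)}
    (hnd : ∀ N ∈ nd, 1 ≤ N.1 ∧ N.1 ≤ K) (RR : Finset Bx)
    (hR : ∀ k ∈ Icc 1 K, ∀ m0 ∈ Ico (0 : ℤ) (6 * 2 ^ (K - k)),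
      ∀ m1 ∈ Ico (0 : ℤ) (6 * 2 ^ (K - k)), ∀ n ∈ Uz σ o (vk nd k) m0 m1,
      rt K k (m0, m1, n, qz o m0 m1 n) ∈ RR) (A : Fin 4 → ℕ → ℤ → ℝ) :
    TT o nd (fun s N => A s N.1) ≤ 3 * ((36 * (4 : ℝ) ^ K)⁻¹ * ∑ R ∈ RR, ∑ k ∈ Icc 1 K,
      ((2 : ℝ) ^ k)⁻¹ * ∑ m ∈ ub σ o nd K R k, |LB σ (fun s => A s k) k m|) := by
  rw [TT_box σ o hnd A]
  obtain ⟨-, -, h3, -⟩ := perm_facts σ
  have h3' : ((|dd σ 3 2| : ℤ) : ℝ) ≤ 3 := by exact_mod_cast h3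
  have h0 : (0 : ℝ) ≤ ((|dd σ 3 2| : ℤ) : ℝ) := by exact_mod_cast abs_nonneg _
  refine mul_le_mul h3' (mul_le_mul_of_nonneg_left ?_ (by positivity)) ?_ (by norm_num)
  · rw [sum_comm (s := RR)]
    refine sum_le_sum fun k hk => ?_
    rw [← mul_sum]
    refine mul_le_mul_of_nonneg_left ?_ (by positivity)
    exact sum_sort σ o nd RR (hR k hk) (Φ := fun m => |LB σ (fun s => A s k) k m|)
      fun m => abs_nonneg _
  · refine mul_nonneg (by positivity) (sum_nonneg fun k _ => mul_nonneg (by positivity) ?_)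
    exact sum_nonneg fun _ _ => sum_nonneg fun _ _ => sum_nonneg fun _ _ => abs_nonneg _

/-! ### A finite set of roots -/

/-- the roots of the boxes of the nodes near `a` -/
def RC (σ : Equiv.Perm (Fin 4)) (K : ℕ) (a : ℤ) : Finset Bx :=
  ((Ico (0 : ℤ) 6 ×ˢ Ico (0 : ℤ) 6 ×ˢ ((Icc (a / 2 ^ K - 177) (a / 2 ^ K + 177)).image
    fun j => j / dd σ 3 2)) ×ˢ Icc (-6 : ℤ) (-1)).image
      fun w => (w.1.1, w.1.2.1, w.1.2.2, w.2 - w.1.1 - w.1.2.1 - w.1.2.2)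

theorem card_RC (σ : Equiv.Perm (Fin 4)) (K : ℕ) (a : ℤ) : (RC σ K a).card ≤ 76680 := by
  unfold RC
  refine card_image_le.trans ?_
  rw [card_product, card_product, card_product, Int.card_Ico, Int.card_Icc]
  have h : ((Icc (a / 2 ^ K - 177) (a / 2 ^ K + 177)).image fun j => j / dd σ 3 2).card ≤ 355 := by
    refine card_image_le.trans ?_
    rw [Int.card_Icc]
    omega
  calc _ ≤ 6 * (6 * 355) * 6 := by
        refine Nat.mul_le_mul (Nat.mul_le_mul le_rfl (Nat.mul_le_mul le_rfl h)) ?_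
        decide
    _ = 76680 := by norm_num

theorem dd_le (σ : Equiv.Perm (Fin 4)) (s t : Fin 4) : |dd σ s t| ≤ 3 := by
  have k3 : ∀ u w : Fin 4, (((u : ℕ) : ℤ) - ((w : ℕ) : ℤ)).natAbs ≤ 3 := by
    decide
  have h : (dd σ s t).natAbs ≤ 3 := k3 (σ t) (σ s)
  rw [Int.abs_eq_natAbs]
  omega

theorem ix_bd (d : ℕ) (x : ℤ) : 2 ^ d * ix d x ≤ x ∧ x < 2 ^ d * ix d x + 2 ^ d := by
  have pd : (0 : ℤ) < 2 ^ d := by positivity
  unfold ix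
  have h3 := Int.mul_ediv_add_emod x (2 ^ d)
  have h4 := Int.emod_nonneg x pd.ne'
  have h5 := Int.emod_lt_of_pos x pd
  constructor <;> linarith

theorem aux_cell {q M x : ℤ} (hq : 0 < q) (h0 : 0 ≤ x) (h1 : x < 6 * q) (g : q * M ≤ x)
    (g' : x < q * M + q) : M ∈ Ico (0 : ℤ) 6 := by
  rw [mem_Ico]
  constructor
  · have : q * 0 < q * (M + 1) := by linarith
    have := lt_of_mul_lt_mul_left this hq.le
    linarith
  · have : q * M < q * 6 := by linarith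
    exact lt_of_mul_lt_mul_left this hq.le

theorem aux_sum {q S t : ℤ} (hq : 1 ≤ q) (h1 : q * S ≤ t) (h2 : t < q * S + 4 * q)
    (ht : -3 ≤ t) (ht' : t ≤ -1) : S ∈ Icc (-6 : ℤ) (-1) := by
  rw [mem_Icc]
  have hq0 : 0 < q := by linarith
  constructor
  · have : q * (-7) < q * S := by nlinarith
    have := lt_of_mul_lt_mul_left this hq0.le
    linarith
  · have : q * S < q * 0 := by linarith
    have := lt_of_mul_lt_mul_left this hq0.le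
    linarith

theorem aux_near {T U Y a : ℤ} (hT : 0 < T) (h1 : a ≤ U) (h2 : U ≤ a + 128 * T)
    (h3 : |U - T * Y| ≤ 48 * T) : Y ∈ Icc (a / T - 177) (a / T + 177) := by
  rw [mem_Icc]
  have ha := Int.mul_ediv_add_emod a T
  have ha4 := Int.emod_nonneg a hT.ne'
  have ha5 := Int.emod_lt_of_pos a hT
  have c := abs_le.1 h3
  constructor
  · have : T * (a / T - 178) < T * Y := by linarith [c.2]
    have := lt_of_mul_lt_mul_left this hT.le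
    linarith
  · have : T * Y < T * (a / T + 178) := by linarith [c.1]
    have := lt_of_mul_lt_mul_left this hT.le
    linarith

theorem aux_Z {D A B c0 m0 m1 n M q : ℤ} (hA : |A| ≤ 3) (hB : |B| ≤ 3) (hD : |D| ≤ 3)
    (hc : |c0| ≤ 9) (hq : 1 ≤ q) (h0 : 0 ≤ m0) (h0' : m0 ≤ 6 * q) (h1 : 0 ≤ m1)
    (h1' : m1 ≤ 6 * q) (g : q * M ≤ n) (g' : n ≤ q * M + q) :
    |c0 + A * m0 + B * m1 + D * n - q * (D * M)| ≤ 48 * q := by
  have b0 : |A * m0| ≤ 18 * q := by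
    rw [abs_mul, abs_of_nonneg h0]
    calc |A| * m0 ≤ 3 * (6 * q) := mul_le_mul hA h0' h0 (by norm_num)
      _ = _ := by ring
  have b1 : |B * m1| ≤ 18 * q := by
    rw [abs_mul, abs_of_nonneg h1]
    calc |B| * m1 ≤ 3 * (6 * q) := mul_le_mul hB h1' h1 (by norm_num)
      _ = _ := by ring
  have b2 : |D * (n - q * M)| ≤ 3 * q := by
    have h2 : 0 ≤ n - q * M := by linarith
    rw [abs_mul, abs_of_nonneg h2]
    exact mul_le_mul hD (by linarith) h2 (by norm_num)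
  have b3 : |c0| ≤ 9 * q := hc.trans (by linarith)
  have e : c0 + A * m0 + B * m1 + D * n - q * (D * M) =
      c0 + A * m0 + B * m1 + D * (n - q * M) := by ring
  rw [e]
  calc |c0 + A * m0 + B * m1 + D * (n - q * M)| ≤
        |c0| + |A * m0| + |B * m1| + |D * (n - q * M)| := by
          refine (abs_add_le _ _).trans (add_le_add ?_ le_rfl)
          refine (abs_add_le _ _).trans (add_le_add ?_ le_rfl)
          exact abs_add_le _ _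
    _ ≤ _ := by linarith

/-- the root of a box whose node is near `a` -/
theorem mem_RC (σ : Equiv.Perm (Fin 4)) {o : ℤ} (ho : o = 1 ∨ o = -1) {K k : ℕ} (hk : k ≤ K)
    {a m0 m1 n : ℤ} (h0 : m0 ∈ Ico (0 : ℤ) (6 * 2 ^ (K - k)))
    (h1 : m1 ∈ Ico (0 : ℤ) (6 * 2 ^ (K - k)))
    (hv : a ≤ 2 ^ k * vz σ o m0 m1 n ∧ 2 ^ k * vz σ o m0 m1 n ≤ a + 2 ^ (K + 7)) :
    rt K k (m0, m1, n, qz o m0 m1 n) ∈ RC σ K a := by
  obtain ⟨d, rfl⟩ := Nat.exists_eq_add_of_le hk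
  rw [Nat.add_sub_cancel_left] at h0 h1
  rw [mem_Ico] at h0 h1
  unfold RC rt
  rw [Nat.add_sub_cancel_left]
  simp only
  have p2 : (0 : ℤ) < 2 ^ k := by positivity
  have pd : (0 : ℤ) < 2 ^ d := by positivity
  have pd1 : (1 : ℤ) ≤ 2 ^ d := pd
  have pK : (0 : ℤ) < 2 ^ (k + d) := by positivity
  have pKe : (2 : ℤ) ^ (k + d) = 2 ^ k * 2 ^ d := pow_add 2 k d
  have g0 := ix_bd d m0
  have g1 := ix_bd d m1
  have g2 := ix_bd d n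
  have g3 := ix_bd d (qz o m0 m1 n)
  refine mem_image.2 ⟨((ix d m0, ix d m1, ix d n),
    ix d m0 + ix d m1 + ix d n + ix d (qz o m0 m1 n)), ?_, by
    simp only [Prod.mk.injEq, true_and]; ring⟩
  rw [mem_product, mem_product, mem_product]
  refine ⟨⟨aux_cell pd h0.1 h0.2 g0.1 g0.2, aux_cell pd h1.1 h1.2 g1.1 g1.2, ?_⟩, ?_⟩
  · refine mem_image.2 ⟨dd σ 3 2 * ix d n, ?_, Int.mul_ediv_cancel_left _ (dd_ne σ (by decide))⟩
    have e7 : (2 : ℤ) ^ (k + d + 7) = 128 * 2 ^ (k + d) := by rw [pow_add _ _ 7]; norm_num; ring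
    rw [e7] at hv
    refine aux_near pK hv.1 hv.2 ?_
    have hc : |((σ 3 : ℕ) : ℤ) * (o - 2)| ≤ 9 := by
      have := (σ 3).isLt
      have h3 : 0 ≤ ((σ 3 : ℕ) : ℤ) ∧ ((σ 3 : ℕ) : ℤ) ≤ 3 := by constructor <;> omega
      rw [abs_mul, abs_of_nonneg h3.1]
      rcases ho with rfl | rfl
      · norm_num; linarith
      · norm_num; linarith
    have hZ := aux_Z (dd_le σ 3 0) (dd_le σ 3 1) (dd_le σ 3 2) hc pd1 h0.1 h0.2.le h1.1 h1.2.le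
      g2.1 g2.2.le
    rw [vz_eq, pKe]
    have e8 : 2 ^ k * (((σ 3 : ℕ) : ℤ) * (o - 2) + dd σ 3 0 * m0 + dd σ 3 1 * m1 + dd σ 3 2 * n) -
        2 ^ k * 2 ^ d * (dd σ 3 2 * ix d n) = 2 ^ k * (((σ 3 : ℕ) : ℤ) * (o - 2) +
        dd σ 3 0 * m0 + dd σ 3 1 * m1 + dd σ 3 2 * n - 2 ^ d * (dd σ 3 2 * ix d n)) := by ring
    rw [e8, abs_mul, abs_of_pos p2]
    calc _ ≤ 2 ^ k * (48 * 2 ^ d) := mul_le_mul_of_nonneg_left hZ p2.le
      _ = _ := by ring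
  · have hs : m0 + m1 + n + qz o m0 m1 n = o - 2 := by unfold qz; ring
    refine aux_sum pd1 (t := o - 2) ?_ ?_ ?_ ?_
    · simp only; rw [mul_add, mul_add, mul_add]; linarith [g0.1, g1.1, g2.1, g3.1]
    · simp only; rw [mul_add, mul_add, mul_add]; linarith [g0.2, g1.2, g2.2, g3.2]
    · rcases ho with rfl | rfl <;> norm_num
    · rcases ho with rfl | rfl <;> norm_num

/-- **(SP), one cell**: nodes whose windows are in one cell of scale `K` of `gr 7 s` -/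
theorem TT_cell (σ : Equiv.Perm (Fin 4)) {o : ℤ} (ho : o = 1 ∨ o = -1) {s : ℤ} {K : ℕ} {x : ℤ}
    {nd : Finset (ℕ × ℤ)} (hnd : ∀ N ∈ nd, 1 ≤ N.1 ∧ N.1 ≤ K)
    (hx : ∀ N ∈ nd, W N.1 N.2 ⊆ (gr 7 s).cube K x) (A : Fin 4 → ℕ → ℤ → ℝ) :
    TT o nd (fun s N => A s N.1) ≤ 3 * ((36 * (4 : ℝ) ^ K)⁻¹ *
      ∑ R ∈ RC σ K (2 ^ (K + 7) * ((x + s) / 2 ^ (K + 7)) - s), ∑ k ∈ Icc 1 K,
      ((2 : ℝ) ^ k)⁻¹ * ∑ m ∈ ub σ o nd K R k, |LB σ (fun s => A s k) k m|) := by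
  refine TT_roots σ o hnd _ ?_ A
  intro k hk m0 h0 m1 h1 n hn
  refine mem_RC σ ho (mem_Icc.1 hk).2 h0 h1 ?_
  have h2 := hx _ (mem_vk.1 (mem_Uz.1 hn))
  simp only at h2
  have p2 : (0 : ℤ) < 2 ^ k := by positivity
  unfold W at h2
  have hsub : Ico (2 ^ k * (vz σ o m0 m1 n - 16)) (2 ^ k * (vz σ o m0 m1 n + 16)) ⊆
      Ico (2 ^ (K + 7) * ((x + s) / 2 ^ (K + 7)) - s)
        (2 ^ (K + 7) * ((x + s) / 2 ^ (K + 7)) - s + 2 ^ (K + 7)) := h2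
  rw [Finset.Ico_subset_Ico_iff (by nlinarith)] at hsub
  constructor <;> nlinarith [hsub.1, hsub.2]

end

end Vale.Agent.P141.H911
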