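import Vale.Agent.P141.H911.Fibre

/-!
# P141, line W, (E-Z) part 2: the total of the nodes and the average over the fibres

* `card_dvd`: the cells `m0` which see a node;
* `sum_nodes`: the sum over the nodes of one scale is the sum over the boxes of the fibres;
* `scale_le`, `TT_fib`: the total of the nodes is at most `|σ 2 - σ 3|` times the average over
  `z ∈ [0, 6·2^K)²` of the fibre sums;
* `nodes_fib`: the same as an identity for a density of the nodes.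
-/

namespace Vale.Agent.P141.H911

open Finset
open Vale.Agent.P141.PL.H855 (wN TT)
open Vale.Agent.P141.PL.H315 (avg)
open Vale.Agent.P141.H337 (ivm mem_ivm card_ivm sum_long av2)

noncomputable section

/-! ### Counting the cells of the fibres which see a node -/

theorem dvd_iff_modEq {A D a b : ℤ} (h : a * A + b * D = 1) (w x : ℤ) :
    D ∣ w - A * x ↔ x ≡ a * w [ZMOD D] := by
  rw [Int.modEq_iff_dvd]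
  constructor
  · rintro ⟨t, ht⟩
    exact ⟨a * t - b * x, by linear_combination a * ht + x * h⟩
  · rintro ⟨t, ht⟩
    exact ⟨A * t + b * w, by linear_combination A * ht - w * h⟩

theorem card_modEq {D : ℤ} (hD : 0 < D) (L v : ℤ) (hL : 0 ≤ L) :
    (((Ico 0 (D * L)).filter fun x => x ≡ v [ZMOD D]).card : ℤ) = L := by
  rw [Int.Ico_filter_modEq_card _ _ hD]
  have hD' : (D : ℚ) ≠ 0 := by exact_mod_cast hD.ne'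
  have e1 : (((D * L : ℤ) : ℚ) - v) / D = ((0 : ℤ) - v : ℚ) / D + (L : ℤ) := by
    push_cast
    field_simp
    ring
  rw [e1, Int.ceil_add_intCast]
  rw [max_eq_left]
  · ring
  · linarith

theorem card_dvd {A D : ℤ} (hD : D ≠ 0) (h6 : D ∣ 6) (hc : IsCoprime A D) (N : ℤ) (hN : 0 ≤ N)
    (w : ℤ) : |D| * (((Ico 0 (6 * N)).filter fun x => D ∣ w - A * x).card : ℤ) = 6 * N := by
  obtain ⟨a, b, h⟩ := hc
  obtain ⟨e, he⟩ := (abs_dvd D 6).2 h6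
  have hD' : 0 < |D| := abs_pos.2 hD
  have he0 : 0 ≤ e := by
    by_contra hn
    push Not at hn
    nlinarith
  have h1 : (Ico 0 (6 * N)).filter (fun x => D ∣ w - A * x) =
      (Ico 0 (|D| * (e * N))).filter fun x => x ≡ a * w [ZMOD |D|] := by
    rw [← mul_assoc, ← he]
    refine filter_congr fun x _ => ?_
    rw [dvd_iff_modEq h, Int.modEq_iff_dvd, Int.modEq_iff_dvd, abs_dvd]
  rw [h1, card_modEq hD' _ _ (mul_nonneg he0 hN)]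
  rw [← mul_assoc, ← he]

theorem perm_facts (σ : Equiv.Perm (Fin 4)) :
    IsCoprime (dd σ 3 0) (dd σ 3 2) ∧ dd σ 3 2 ∣ 6 ∧ |dd σ 3 2| ≤ 3 ∧ 1 ≤ |dd σ 3 2| := by
  have k1 : ∀ x u w : Fin 4, x ≠ u → x ≠ w → u ≠ w →
      Int.gcd (((x : ℕ) : ℤ) - ((w : ℕ) : ℤ)) (((u : ℕ) : ℤ) - ((w : ℕ) : ℤ)) = 1 := by
    decide
  have k2 : ∀ u w : Fin 4, u ≠ w → (((u : ℕ) : ℤ) - ((w : ℕ) : ℤ)) ∣ 6 := by
    decide
  have k3 : ∀ u w : Fin 4, (((u : ℕ) : ℤ) - ((w : ℕ) : ℤ)).natAbs ≤ 3 := by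
    decide
  refine ⟨Int.isCoprime_iff_gcd_eq_one.2 ?_, ?_, ?_, ?_⟩
  · exact k1 (σ 0) (σ 2) (σ 3) (σ.injective.ne (by decide)) (σ.injective.ne (by decide))
      (σ.injective.ne (by decide))
  · exact k2 (σ 2) (σ 3) (σ.injective.ne (by decide))
  · have h : (dd σ 3 2).natAbs ≤ 3 := k3 (σ 2) (σ 3)
    rw [Int.abs_eq_natAbs]
    omega
  · exact Int.one_le_abs (dd_ne σ (by decide))

/-- the cells `n` of the fibre over the cells `m0`, `m1` whose nodes are in `V` -/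
def Uz (σ : Equiv.Perm (Fin 4)) (o : ℤ) (V : Finset ℤ) (m0 m1 : ℤ) : Finset ℤ :=
  V.preimage (vz σ o m0 m1) ((vz_inj σ o m0 m1).injOn)

theorem mem_Uz {σ : Equiv.Perm (Fin 4)} {o : ℤ} {V : Finset ℤ} {m0 m1 n : ℤ} :
    n ∈ Uz σ o V m0 m1 ↔ vz σ o m0 m1 n ∈ V := mem_preimage

theorem sum_Uz (σ : Equiv.Perm (Fin 4)) (o : ℤ) (V : Finset ℤ) (m0 m1 : ℤ) (F : ℤ → ℝ) :
    ∑ n ∈ Uz σ o V m0 m1, F (vz σ o m0 m1 n) =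
      ∑ v ∈ V, if dd σ 3 2 ∣ v - ((σ 3 : ℕ) : ℤ) * (o - 2) - dd σ 3 1 * m1 - dd σ 3 0 * m0 then
        F v else 0 := by
  classical
  unfold Uz
  rw [sum_preimage', sum_filter]
  refine sum_congr rfl fun v _ => if_congr ⟨?_, ?_⟩ rfl rfl
  · rintro ⟨n, rfl⟩
    exact ⟨n, by rw [vz_eq]; ring⟩
  · rintro ⟨n, hn⟩
    exact ⟨n, by rw [vz_eq]; linear_combination -hn⟩

/-- **the sum over the nodes is the sum over the boxes of the fibres** -/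
theorem sum_nodes (σ : Equiv.Perm (Fin 4)) (o : ℤ) (V : Finset ℤ) {N : ℤ} (hN : 0 ≤ N)
    (F : ℤ → ℝ) : (36 * (N : ℝ) ^ 2) * ∑ v ∈ V, F v = (|dd σ 3 2| : ℤ) *
      ∑ m0 ∈ Ico 0 (6 * N), ∑ m1 ∈ Ico 0 (6 * N), ∑ n ∈ Uz σ o V m0 m1, F (vz σ o m0 m1 n) := by
  classical
  obtain ⟨hc, h6, -, -⟩ := perm_facts σ
  have hD : dd σ 3 2 ≠ 0 := dd_ne σ (by decide)
  simp_rw [sum_Uz]
  set c0 := ((σ 3 : ℕ) : ℤ) * (o - 2) with hc0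
  rw [sum_comm (s := Ico 0 (6 * N)) (t := Ico 0 (6 * N))]
  have e1 : ∀ m1 : ℤ, (∑ m0 ∈ Ico 0 (6 * N), ∑ v ∈ V,
      if dd σ 3 2 ∣ v - c0 - dd σ 3 1 * m1 - dd σ 3 0 * m0 then F v else 0) =
      ∑ v ∈ V, (((Ico 0 (6 * N)).filter fun m0 => dd σ 3 2 ∣ v - c0 - dd σ 3 1 * m1 -
        dd σ 3 0 * m0).card : ℝ) * F v := by
    intro m1
    rw [sum_comm]
    refine sum_congr rfl fun v _ => ?_
    rw [← sum_filter, sum_const, nsmul_eq_mul]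
  simp_rw [e1]
  rw [mul_sum (s := Ico 0 (6 * N))]
  have e2 : ∀ m1 ∈ Ico 0 (6 * N), ((|dd σ 3 2| : ℤ) : ℝ) * ∑ v ∈ V,
      (((Ico 0 (6 * N)).filter fun m0 => dd σ 3 2 ∣ v - c0 - dd σ 3 1 * m1 -
        dd σ 3 0 * m0).card : ℝ) * F v = (6 * (N : ℝ)) * ∑ v ∈ V, F v := by
    intro m1 _
    rw [mul_sum, mul_sum]
    refine sum_congr rfl fun v _ => ?_
    have h := card_dvd hD h6 hc N hN (v - c0 - dd σ 3 1 * m1)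
    have h' : ((|dd σ 3 2| : ℤ) : ℝ) * (((Ico 0 (6 * N)).filter fun m0 =>
        dd σ 3 2 ∣ v - c0 - dd σ 3 1 * m1 - dd σ 3 0 * m0).card : ℝ) = 6 * (N : ℝ) := by
      exact_mod_cast h
    rw [← mul_assoc, h']
  rw [sum_congr rfl e2, sum_const, nsmul_eq_mul, Int.card_Ico]
  have h3 : (((6 * N - 0).toNat : ℕ) : ℝ) = 6 * (N : ℝ) := by
    have : (((6 * N - 0).toNat : ℕ) : ℤ) = 6 * N := by
      rw [Int.toNat_of_nonneg (by linarith)]; ring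
    exact_mod_cast this
  rw [h3]
  ring

/-- the sum over the cells is a sum over the points -/
theorem sum_cells {k K : ℕ} (hk : k ≤ K) (φ : ℤ → ℤ → ℝ) :
    ∑ m0 ∈ Ico (0 : ℤ) (6 * 2 ^ (K - k)), ∑ m1 ∈ Ico (0 : ℤ) (6 * 2 ^ (K - k)),
      ∑ x0 ∈ ivm k m0, ∑ x1 ∈ ivm k m1, φ x0 x1 =
    ∑ x0 ∈ Ico (0 : ℤ) (6 * 2 ^ K), ∑ x1 ∈ Ico (0 : ℤ) (6 * 2 ^ K), φ x0 x1 := by
  have e0 : (Ico (0 : ℤ) (6 * 2 ^ K)) = Ico (2 ^ k * 0) (2 ^ k * (6 * 2 ^ (K - k))) := by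
    rw [show (2 : ℤ) ^ k * (6 * 2 ^ (K - k)) = 6 * (2 ^ k * 2 ^ (K - k)) by ring, ← pow_add,
      Nat.add_sub_cancel' hk, mul_zero]
  rw [e0, sum_long]
  refine sum_congr rfl fun m0 _ => ?_
  rw [sum_comm]
  refine sum_congr rfl fun x0 _ => ?_
  rw [sum_long]

theorem sum_cells' {k K : ℕ} (hk : k ≤ K) (Ψ : ℤ → ℤ → ℤ → ℤ → ℝ) :
    ∑ m0 ∈ Ico (0 : ℤ) (6 * 2 ^ (K - k)), ∑ m1 ∈ Ico (0 : ℤ) (6 * 2 ^ (K - k)),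
      ∑ x0 ∈ ivm k m0, ∑ x1 ∈ ivm k m1, Ψ m0 m1 x0 x1 =
    ∑ x0 ∈ Ico (0 : ℤ) (6 * 2 ^ K), ∑ x1 ∈ Ico (0 : ℤ) (6 * 2 ^ K),
      Ψ (x0 / 2 ^ k) (x1 / 2 ^ k) x0 x1 := by
  rw [← sum_cells hk]
  refine sum_congr rfl fun m0 _ => sum_congr rfl fun m1 _ => sum_congr rfl fun x0 hx0 =>
    sum_congr rfl fun x1 hx1 => ?_
  rw [mem_ivm.1 hx0, mem_ivm.1 hx1]

/-- **one scale**: the sum over the nodes of one scale is at most the average over the fibres -/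
theorem scale_le (σ : Equiv.Perm (Fin 4)) (o : ℤ) {k K : ℕ} (hk : 1 ≤ k) (hkK : k ≤ K)
    (V : Finset ℤ) (f : Fin 4 → ℤ → ℝ) :
    ∑ v ∈ V, |wN o f (k, v)| ≤ (|dd σ 3 2| : ℤ) * ((36 * (4 : ℝ) ^ K)⁻¹ *
      ∑ x0 ∈ Ico (0 : ℤ) (6 * 2 ^ K), ∑ x1 ∈ Ico (0 : ℤ) (6 * 2 ^ K),
        ∑ n ∈ Uz σ o V (x0 / 2 ^ k) (x1 / 2 ^ k), 2 ^ k *
          |av2 (ivm k n) (ivm k (qz o (x0 / 2 ^ k) (x1 / 2 ^ k) n)) (Fz σ f k x0 x1)|) := by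
  have h1 := sum_nodes σ o V (N := 2 ^ (K - k)) (by positivity) (fun v => |wN o f (k, v)|)
  have hD : (0 : ℝ) ≤ (|dd σ 3 2| : ℤ) := by exact_mod_cast abs_nonneg _
  have h2 : ∑ m0 ∈ Ico (0 : ℤ) (6 * 2 ^ (K - k)), ∑ m1 ∈ Ico (0 : ℤ) (6 * 2 ^ (K - k)),
      ∑ n ∈ Uz σ o V m0 m1, |wN o f (k, vz σ o m0 m1 n)| ≤
      ((2 : ℝ) ^ k)⁻¹ * ∑ x0 ∈ Ico (0 : ℤ) (6 * 2 ^ K), ∑ x1 ∈ Ico (0 : ℤ) (6 * 2 ^ K),
        ∑ n ∈ Uz σ o V (x0 / 2 ^ k) (x1 / 2 ^ k),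
          |av2 (ivm k n) (ivm k (qz o (x0 / 2 ^ k) (x1 / 2 ^ k) n)) (Fz σ f k x0 x1)| := by
    rw [← sum_cells' hkK (fun m0 m1 x0 x1 => ∑ n ∈ Uz σ o V m0 m1,
      |av2 (ivm k n) (ivm k (qz o m0 m1 n)) (Fz σ f k x0 x1)|), mul_sum]
    refine sum_le_sum fun m0 _ => ?_
    rw [mul_sum]
    refine sum_le_sum fun m1 _ => ?_
    have e : ∑ x0 ∈ ivm k m0, ∑ x1 ∈ ivm k m1, ∑ n ∈ Uz σ o V m0 m1,
        |av2 (ivm k n) (ivm k (qz o m0 m1 n)) (Fz σ f k x0 x1)| =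
        ∑ n ∈ Uz σ o V m0 m1, ∑ x0 ∈ ivm k m0, ∑ x1 ∈ ivm k m1,
        |av2 (ivm k n) (ivm k (qz o m0 m1 n)) (Fz σ f k x0 x1)| := by
      rw [sum_comm (s := Uz σ o V m0 m1)]
      refine sum_congr rfl fun x0 _ => ?_
      rw [sum_comm]
    rw [e, mul_sum]
    exact sum_le_sum fun n _ => abs_wN_vz σ hk o m0 m1 n f
  have hp : (0 : ℝ) < 36 * ((2 : ℝ) ^ (K - k)) ^ 2 := by positivity
  have h4 : ((2 : ℝ) ^ (K - k)) ^ 2 * 4 ^ k = 4 ^ K := by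
    rw [← pow_mul, mul_comm (K - k) 2, pow_mul]
    norm_num only
    rw [← pow_add, Nat.sub_add_cancel hkK]
  push_cast at h1
  have h5 : ∑ v ∈ V, |wN o f (k, v)| = (36 * ((2 : ℝ) ^ (K - k)) ^ 2)⁻¹ *
      (36 * ((2 : ℝ) ^ (K - k)) ^ 2 * ∑ v ∈ V, |wN o f (k, v)|) := by
    field_simp
  rw [h5, h1]
  set S : ℝ := ∑ x0 ∈ Ico (0 : ℤ) (6 * 2 ^ K), ∑ x1 ∈ Ico (0 : ℤ) (6 * 2 ^ K),
        ∑ n ∈ Uz σ o V (x0 / 2 ^ k) (x1 / 2 ^ k),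
          |av2 (ivm k n) (ivm k (qz o (x0 / 2 ^ k) (x1 / 2 ^ k) n)) (Fz σ f k x0 x1)| with hS
  have e6 : ∑ x0 ∈ Ico (0 : ℤ) (6 * 2 ^ K), ∑ x1 ∈ Ico (0 : ℤ) (6 * 2 ^ K),
        ∑ n ∈ Uz σ o V (x0 / 2 ^ k) (x1 / 2 ^ k), 2 ^ k *
          |av2 (ivm k n) (ivm k (qz o (x0 / 2 ^ k) (x1 / 2 ^ k) n)) (Fz σ f k x0 x1)| =
      2 ^ k * S := by
    rw [hS]
    simp_rw [← mul_sum]
  rw [e6]
  calc _ = (36 * ((2 : ℝ) ^ (K - k)) ^ 2)⁻¹ * ((|dd σ 3 2| : ℤ) : ℝ) *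
        ∑ m0 ∈ Ico (0 : ℤ) (6 * 2 ^ (K - k)), ∑ m1 ∈ Ico (0 : ℤ) (6 * 2 ^ (K - k)),
          ∑ n ∈ Uz σ o V m0 m1, |wN o f (k, vz σ o m0 m1 n)| := by push_cast; ring
    _ ≤ (36 * ((2 : ℝ) ^ (K - k)) ^ 2)⁻¹ * ((|dd σ 3 2| : ℤ) : ℝ) * (((2 : ℝ) ^ k)⁻¹ * S) :=
        mul_le_mul_of_nonneg_left h2 (mul_nonneg (by positivity) hD)
    _ = _ := by
        rw [← h4]
        have : (4 : ℝ) ^ k = 2 ^ k * 2 ^ k := by rw [← mul_pow]; norm_num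
        rw [this]
        field_simp

/-- the cells of the nodes of one scale -/
def vk (nd : Finset (ℕ × ℤ)) (k : ℕ) : Finset ℤ := (nd.filter fun N => N.1 = k).image Prod.snd

theorem mem_vk {nd : Finset (ℕ × ℤ)} {k : ℕ} {v : ℤ} : v ∈ vk nd k ↔ (k, v) ∈ nd := by
  unfold vk
  rw [mem_image]
  constructor
  · rintro ⟨N, hN, rfl⟩
    rw [mem_filter] at hN
    obtain ⟨h1, h2⟩ := hN
    rw [← h2]
    exact h1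
  · intro h
    exact ⟨(k, v), mem_filter.2 ⟨h, rfl⟩, rfl⟩

theorem sum_scales {nd : Finset (ℕ × ℤ)} {K : ℕ} (hnd : ∀ N ∈ nd, 1 ≤ N.1 ∧ N.1 ≤ K)
    (Φ : ℕ × ℤ → ℝ) : ∑ N ∈ nd, Φ N = ∑ k ∈ Icc 1 K, ∑ v ∈ vk nd k, Φ (k, v) := by
  rw [← sum_fiberwise_of_maps_to (s := nd) (t := Icc 1 K) (g := fun N => N.1)
    (fun N hN => mem_Icc.2 (hnd N hN))]
  refine sum_congr rfl fun k _ => ?_
  unfold vk
  rw [sum_image]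
  · refine sum_congr rfl fun N hN => ?_
    rw [← (mem_filter.1 hN).2]
  · intro N hN N' hN' h
    have h1 := (mem_filter.1 (mem_coe.1 hN)).2
    have h2 := (mem_filter.1 (mem_coe.1 hN')).2
    exact Prod.ext (h1.trans h2.symm) h

/-- **(E-Z)**: the total of the nodes is at most the average over `z` of the fibre sums -/
theorem TT_fib (σ : Equiv.Perm (Fin 4)) (o : ℤ) {K : ℕ} {nd : Finset (ℕ × ℤ)}
    (hnd : ∀ N ∈ nd, 1 ≤ N.1 ∧ N.1 ≤ K) (A : Fin 4 → ℕ → ℤ → ℝ) :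
    TT o nd (fun s N => A s N.1) ≤ (|dd σ 3 2| : ℤ) * ((36 * (4 : ℝ) ^ K)⁻¹ *
      ∑ x0 ∈ Ico (0 : ℤ) (6 * 2 ^ K), ∑ x1 ∈ Ico (0 : ℤ) (6 * 2 ^ K), ∑ k ∈ Icc 1 K,
        ∑ n ∈ Uz σ o (vk nd k) (x0 / 2 ^ k) (x1 / 2 ^ k), 2 ^ k *
          |av2 (ivm k n) (ivm k (qz o (x0 / 2 ^ k) (x1 / 2 ^ k) n))
            (Fz σ (fun s => A s k) k x0 x1)|) := by
  unfold TT
  rw [sum_scales hnd]
  refine (sum_le_sum fun k hk => scale_le σ o (mem_Icc.1 hk).1 (mem_Icc.1 hk).2 (vk nd k)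
    (fun s => A s k)).trans (le_of_eq ?_)
  rw [← mul_sum, ← mul_sum]
  congr 2
  rw [sum_comm]
  refine sum_congr rfl fun x0 _ => ?_
  rw [sum_comm]

/-- **the average over `z` of a density of the nodes** -/
theorem nodes_fib (σ : Equiv.Perm (Fin 4)) (o : ℤ) {K : ℕ} {nd : Finset (ℕ × ℤ)}
    (hnd : ∀ N ∈ nd, N.1 ≤ K) (hnd1 : ∀ N ∈ nd, 1 ≤ N.1) (ψ : ℕ → ℤ → ℝ) :
    ∑ N ∈ nd, ψ N.1 N.2 = (|dd σ 3 2| : ℤ) * ((36 * (4 : ℝ) ^ K)⁻¹ *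
      ∑ x0 ∈ Ico (0 : ℤ) (6 * 2 ^ K), ∑ x1 ∈ Ico (0 : ℤ) (6 * 2 ^ K), ∑ k ∈ Icc 1 K,
        ∑ n ∈ Uz σ o (vk nd k) (x0 / 2 ^ k) (x1 / 2 ^ k),
          ψ k (vz σ o (x0 / 2 ^ k) (x1 / 2 ^ k) n)) := by
  rw [sum_scales (fun N hN => ⟨hnd1 N hN, hnd N hN⟩) (fun N => ψ N.1 N.2)]
  have key : ∀ k ∈ Icc 1 K, ∑ v ∈ vk nd k, ψ k v = (|dd σ 3 2| : ℤ) * ((36 * (4 : ℝ) ^ K)⁻¹ *
      ∑ x0 ∈ Ico (0 : ℤ) (6 * 2 ^ K), ∑ x1 ∈ Ico (0 : ℤ) (6 * 2 ^ K),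
        ∑ n ∈ Uz σ o (vk nd k) (x0 / 2 ^ k) (x1 / 2 ^ k),
          ψ k (vz σ o (x0 / 2 ^ k) (x1 / 2 ^ k) n)) := by
    intro k hk
    have hkK := (mem_Icc.1 hk).2
    have h1 := sum_nodes σ o (vk nd k) (N := 2 ^ (K - k)) (by positivity) (ψ k)
    have h4 : ((2 : ℝ) ^ (K - k)) ^ 2 * 4 ^ k = 4 ^ K := by
      rw [← pow_mul, mul_comm (K - k) 2, pow_mul]
      norm_num only
      rw [← pow_add, Nat.sub_add_cancel hkK]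
    have h2 : ∑ m0 ∈ Ico (0 : ℤ) (6 * 2 ^ (K - k)), ∑ m1 ∈ Ico (0 : ℤ) (6 * 2 ^ (K - k)),
        ∑ n ∈ Uz σ o (vk nd k) m0 m1, ψ k (vz σ o m0 m1 n) = ((4 : ℝ) ^ k)⁻¹ *
        ∑ x0 ∈ Ico (0 : ℤ) (6 * 2 ^ K), ∑ x1 ∈ Ico (0 : ℤ) (6 * 2 ^ K),
        ∑ n ∈ Uz σ o (vk nd k) (x0 / 2 ^ k) (x1 / 2 ^ k),
          ψ k (vz σ o (x0 / 2 ^ k) (x1 / 2 ^ k) n) := by
      rw [← sum_cells' hkK (fun m0 m1 _ _ => ∑ n ∈ Uz σ o (vk nd k) m0 m1,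
        ψ k (vz σ o m0 m1 n)), mul_sum]
      refine sum_congr rfl fun m0 _ => ?_
      rw [mul_sum]
      refine sum_congr rfl fun m1 _ => ?_
      simp only [sum_const, card_ivm, nsmul_eq_mul]
      have : (4 : ℝ) ^ k = 2 ^ k * 2 ^ k := by rw [← mul_pow]; norm_num
      rw [this]
      push_cast
      field_simp
    push_cast at h1
    have h5 : ∑ v ∈ vk nd k, ψ k v = (36 * ((2 : ℝ) ^ (K - k)) ^ 2)⁻¹ *
        (36 * ((2 : ℝ) ^ (K - k)) ^ 2 * ∑ v ∈ vk nd k, ψ k v) := by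
      field_simp
    rw [h5, h1, h2, ← h4]
    push_cast
    field_simp
  rw [sum_congr rfl key, ← mul_sum, ← mul_sum]
  congr 2
  rw [sum_comm]
  refine sum_congr rfl fun x0 _ => ?_
  rw [sum_comm]

end

end Vale.Agent.P141.H911
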