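import Vale.Agent.P141.H911.Coef
import Vale.Agent.P141.H540.Lift

/-!
# P141, line W: the four forms of a box as lines, windows, matching of the roots

* `Pz_ln`, `Gz_ln`, `Xz_ln`, `Yz_ln`: the four slots on a fibre in the letters `ln (t0 + d0 * x0) d d'`;
* `dd_sum0` .. `dd_sum3`: the three coefficients of a slot have total absolute value `≤ 6`;
* `WI K c`: an interval of length `12 · 2^K`; `ln_mem`: the values of a form over one root quadruple;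
* `anc_sum`: the indices of the root of a matched box have the sum `-3, -2` or `-1`;
  `anc_M0`: at most three `M0` for given `(M1, M2, M3)`;
* `mem_bx3_of`: the last three cells of a used box in `bx3`.
-/

namespace Vale.Agent.P141.H911

open Finset
open Vale.Agent.P141.PL (Pt Bx el ix iv mem_iv)
open Vale.Agent.P141.H540 (ln)
open Vale.Agent.P141.PL.H804 (bx3)

noncomputable section

/-! ### The four forms -/

theorem Pz_ln (σ : Equiv.Perm (Fin 4)) (f : Fin 4 → ℤ → ℝ) (x1 x2 x3 : ℤ) :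
    Pz σ f x1 x2 x3 = f (σ 0) (ln (0 + dd σ 0 1 * x1) (dd σ 0 2) (dd σ 0 3) x2 x3) := by
  unfold Pz ln; rw [zero_add]

theorem Gz_ln (σ : Equiv.Perm (Fin 4)) (f : Fin 4 → ℤ → ℝ) (x0 x2 x3 : ℤ) :
    Gz σ f x0 x2 x3 = f (σ 1) (ln (0 + dd σ 1 0 * x0) (dd σ 1 2) (dd σ 1 3) x2 x3) := by
  unfold Gz ln; rw [zero_add]

theorem Xz_ln (σ : Equiv.Perm (Fin 4)) (f : Fin 4 → ℤ → ℝ) (x0 x1 x3 : ℤ) :
    Xz σ f x0 x1 x3 = f (σ 2) (ln (0 + dd σ 2 0 * x0) (dd σ 2 1) (dd σ 2 3) x1 x3) := by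
  unfold Xz ln; rw [zero_add]

theorem Yz_ln (σ : Equiv.Perm (Fin 4)) (f : Fin 4 → ℤ → ℝ) (x0 x1 x2 : ℤ) :
    Yz σ f x0 x1 x2 = f (σ 3) (ln (0 + dd σ 3 0 * x0) (dd σ 3 1) (dd σ 3 2) x1 x2) := by
  unfold Yz ln; rw [zero_add]

theorem dd_sum (σ : Equiv.Perm (Fin 4)) {s a b c : Fin 4} (h1 : s ≠ a) (h2 : s ≠ b) (h3 : s ≠ c)
    (h4 : a ≠ b) (h5 : a ≠ c) (h6 : b ≠ c) : |dd σ s a| + |dd σ s b| + |dd σ s c| ≤ 6 := by
  have key : ∀ s a b c : Fin 4, s ≠ a ∧ s ≠ b ∧ s ≠ c ∧ a ≠ b ∧ a ≠ c ∧ b ≠ c →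
      (((a : ℕ) : ℤ) - ((s : ℕ) : ℤ)).natAbs + (((b : ℕ) : ℤ) - ((s : ℕ) : ℤ)).natAbs +
        (((c : ℕ) : ℤ) - ((s : ℕ) : ℤ)).natAbs ≤ 6 := by
    decide
  have h := key (σ s) (σ a) (σ b) (σ c) ⟨σ.injective.ne h1, σ.injective.ne h2,
    σ.injective.ne h3, σ.injective.ne h4, σ.injective.ne h5, σ.injective.ne h6⟩
  have e : (dd σ s a).natAbs + (dd σ s b).natAbs + (dd σ s c).natAbs ≤ 6 := h
  rw [Int.abs_eq_natAbs, Int.abs_eq_natAbs, Int.abs_eq_natAbs]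
  omega

/-- the coefficients of `P` -/
theorem dd_sum0 (σ : Equiv.Perm (Fin 4)) : |dd σ 0 1| + |dd σ 0 2| + |dd σ 0 3| ≤ 6 :=
  dd_sum σ (by decide) (by decide) (by decide) (by decide) (by decide) (by decide)

/-- the coefficients of `G` -/
theorem dd_sum1 (σ : Equiv.Perm (Fin 4)) : |dd σ 1 0| + |dd σ 1 2| + |dd σ 1 3| ≤ 6 :=
  dd_sum σ (by decide) (by decide) (by decide) (by decide) (by decide) (by decide)

/-- the coefficients of `X` -/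
theorem dd_sum2 (σ : Equiv.Perm (Fin 4)) : |dd σ 2 0| + |dd σ 2 1| + |dd σ 2 3| ≤ 6 :=
  dd_sum σ (by decide) (by decide) (by decide) (by decide) (by decide) (by decide)

/-- the coefficients of `Y` -/
theorem dd_sum3 (σ : Equiv.Perm (Fin 4)) : |dd σ 3 0| + |dd σ 3 1| + |dd σ 3 2| ≤ 6 :=
  dd_sum σ (by decide) (by decide) (by decide) (by decide) (by decide) (by decide)

/-! ### Windows -/

/-- an interval of length `12 · 2^K` -/
def WI (K : ℕ) (c : ℤ) : Finset ℤ := Ico (2 ^ K * (c - 6)) (2 ^ K * (c + 6))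

theorem card_WI (K : ℕ) (c : ℤ) : (WI K c).card = 12 * 2 ^ K := by
  unfold WI
  rw [Int.card_Ico]
  have : (2 ^ K * (c + 6) - 2 ^ K * (c - 6) : ℤ) = ((12 * 2 ^ K : ℕ) : ℤ) := by push_cast; ring
  rw [this, Int.toNat_natCast]

theorem term_bd {K : ℕ} {M x d : ℤ} (hx : x ∈ iv K M) :
    2 ^ K * (d * M) - (2 ^ K - 1) * |d| ≤ d * x ∧ d * x ≤ 2 ^ K * (d * M) + (2 ^ K - 1) * |d| := by
  unfold iv at hx
  rw [mem_Ico] at hx
  have h1 : |x - 2 ^ K * M| ≤ 2 ^ K - 1 := by rw [abs_le]; constructor <;> linarith [hx.1, hx.2]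
  have h2 : |d * (x - 2 ^ K * M)| ≤ (2 ^ K - 1) * |d| := by
    rw [abs_mul, mul_comm]
    exact mul_le_mul_of_nonneg_right h1 (abs_nonneg _)
  have h3 := abs_le.1 h2
  have e : d * (x - 2 ^ K * M) = d * x - 2 ^ K * (d * M) := by ring
  rw [e] at h3
  constructor <;> linarith [h3.1, h3.2]

/-- **the values of a form over one root quadruple lie in one interval** -/
theorem ln_mem {K : ℕ} {d0 d d' M0 R S x0 x y : ℤ} (hd : |d0| + |d| + |d'| ≤ 6)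
    (h0 : x0 ∈ iv K M0) (hx : x ∈ iv K R) (hy : y ∈ iv K S) :
    ln (0 + d0 * x0) d d' x y ∈ WI K (d0 * M0 + d * R + d' * S) := by
  have p : (0 : ℤ) < 2 ^ K := by positivity
  have b0 := term_bd (d := d0) h0
  have b1 := term_bd (d := d) hx
  have b2 := term_bd (d := d') hy
  have q : (0 : ℤ) ≤ 2 ^ K - 1 := by linarith
  have hs : (2 ^ K - 1) * |d0| + (2 ^ K - 1) * |d| + (2 ^ K - 1) * |d'| ≤ (2 ^ K - 1) * 6 := by
    rw [← mul_add, ← mul_add]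
    exact mul_le_mul_of_nonneg_left hd q
  unfold ln WI
  rw [mem_Ico]
  constructor
  · have : 2 ^ K * (d0 * M0 + d * R + d' * S - 6) =
        2 ^ K * (d0 * M0) + 2 ^ K * (d * R) + 2 ^ K * (d' * S) - 6 * 2 ^ K := by ring
    rw [this]
    linarith [b0.1, b1.1, b2.1]
  · have : 2 ^ K * (d0 * M0 + d * R + d' * S + 6) =
        2 ^ K * (d0 * M0) + 2 ^ K * (d * R) + 2 ^ K * (d' * S) + 6 * 2 ^ K := by ring
    rw [this]
    linarith [b0.2, b1.2, b2.2]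

/-- the window of `Y` over the root `(M0, M1, M2)` -/
theorem Y_mem (σ : Equiv.Perm (Fin 4)) {K : ℕ} {M0 M1 M2 x0 x1 x2 : ℤ} (h0 : x0 ∈ iv K M0)
    (h1 : x1 ∈ iv K M1) (h2 : x2 ∈ iv K M2) :
    ln (0 + dd σ 3 0 * x0) (dd σ 3 1) (dd σ 3 2) x1 x2 ∈
      WI K (dd σ 3 0 * M0 + dd σ 3 1 * M1 + dd σ 3 2 * M2) := ln_mem (dd_sum3 σ) h0 h1 h2

/-- the window of `X` over the root `(M0, M1, M3)` -/
theorem X_mem (σ : Equiv.Perm (Fin 4)) {K : ℕ} {M0 M1 M3 x0 x1 x3 : ℤ} (h0 : x0 ∈ iv K M0)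
    (h1 : x1 ∈ iv K M1) (h3 : x3 ∈ iv K M3) :
    ln (0 + dd σ 2 0 * x0) (dd σ 2 1) (dd σ 2 3) x1 x3 ∈
      WI K (dd σ 2 0 * M0 + dd σ 2 1 * M1 + dd σ 2 3 * M3) := ln_mem (dd_sum2 σ) h0 h1 h3

/-- the window of `G` over the root `(M0, M2, M3)` -/
theorem G_mem (σ : Equiv.Perm (Fin 4)) {K : ℕ} {M0 M2 M3 x0 x2 x3 : ℤ} (h0 : x0 ∈ iv K M0)
    (h2 : x2 ∈ iv K M2) (h3 : x3 ∈ iv K M3) :
    ln (0 + dd σ 1 0 * x0) (dd σ 1 2) (dd σ 1 3) x2 x3 ∈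
      WI K (dd σ 1 0 * M0 + dd σ 1 2 * M2 + dd σ 1 3 * M3) := ln_mem (dd_sum1 σ) h0 h2 h3

/-- the window of `P` over the root `(M1, M2, M3)` -/
theorem P_mem (σ : Equiv.Perm (Fin 4)) {K : ℕ} {M1 M2 M3 x1 x2 x3 : ℤ} (h1 : x1 ∈ iv K M1)
    (h2 : x2 ∈ iv K M2) (h3 : x3 ∈ iv K M3) :
    ln (0 + dd σ 0 1 * x1) (dd σ 0 2) (dd σ 0 3) x2 x3 ∈
      WI K (dd σ 0 1 * M1 + dd σ 0 2 * M2 + dd σ 0 3 * M3) := ln_mem (dd_sum0 σ) h1 h2 h3

/-! ### Matching of the roots -/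

/-- the sum of the indices of the root of a matched box -/
theorem anc_sum {o : ℤ} (ho : o = 1 ∨ o = -1) {d : ℕ} {m0 m1 m2 m3 : ℤ}
    (h : m0 + m1 + m2 + m3 = o - 2) :
    -3 ≤ ix d m0 + ix d m1 + ix d m2 + ix d m3 ∧
      ix d m0 + ix d m1 + ix d m2 + ix d m3 ≤ -1 := by
  have g0 := ix_bd d m0
  have g1 := ix_bd d m1
  have g2 := ix_bd d m2
  have g3 := ix_bd d m3
  have p : (0 : ℤ) < 2 ^ d := by positivity
  set q : ℤ := 2 ^ d with hq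
  set S := ix d m0 + ix d m1 + ix d m2 + ix d m3 with hS
  have e : q * S = q * ix d m0 + q * ix d m1 + q * ix d m2 + q * ix d m3 := by rw [hS]; ring
  have ho' : -3 ≤ o - 2 ∧ o - 2 ≤ -1 := by rcases ho with rfl | rfl <;> norm_num
  have l1 : q * S ≤ -1 := by rw [e]; linarith
  have l2 : 1 - 4 * q ≤ q * S := by rw [e]; linarith
  constructor
  · have : q * (-4) < q * S := by linarith
    have := lt_of_mul_lt_mul_left this p.le
    linarith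
  · have : q * S < q * 0 := by linarith
    have := lt_of_mul_lt_mul_left this p.le
    linarith

/-- at most three `M0` for given `(M1, M2, M3)` -/
theorem anc_M0 {o : ℤ} (ho : o = 1 ∨ o = -1) {d : ℕ} {m0 m1 m2 m3 : ℤ}
    (h : m0 + m1 + m2 + m3 = o - 2) :
    ix d m0 ∈ Icc (-3 - (ix d m1 + ix d m2 + ix d m3)) (-1 - (ix d m1 + ix d m2 + ix d m3)) := by
  have := anc_sum ho (d := d) h
  rw [mem_Icc]
  constructor <;> linarith [this.1, this.2]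

/-- the cell of a point of a cell -/
theorem ix_of_mem {k K : ℕ} (hk : k ≤ K) {M x : ℤ} (hx : x ∈ iv K M) : ix (K - k) (ix k x) = M := by
  rw [PL.ix_ix, Nat.add_sub_cancel' hk]
  exact mem_iv.1 hx

/-- the last three cells of a box over `x0` in the root `(M1, M2, M3)` -/
theorem mem_bx3_of {o : ℤ} {k K : ℕ} {m0 m1 m2 m3 : ℤ} (h : m0 + m1 + m2 + m3 = o - 2) :
    (m1, m2, m3) ∈ bx3 K (ix (K - k) m1, ix (K - k) m2, ix (K - k) m3) k (o - 2 - m0) := by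
  unfold bx3
  rw [mem_filter, mem_product, mem_product, mem_iv, mem_iv, mem_iv]
  exact ⟨⟨rfl, rfl, rfl⟩, by simp only; linarith⟩

/-- a box of `bx3` over `x0` is matched -/
theorem sum_of_bx3 {o : ℤ} {k K : ℕ} {R m : Pt} {m0 : ℤ} (h : m ∈ bx3 K R k (o - 2 - m0)) :
    m0 + m.1 + m.2.1 + m.2.2 = o - 2 := by
  unfold bx3 at h
  have := (mem_filter.1 h).2
  linarith

end

end Vale.Agent.P141.H911
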